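import Vale.Agent.P322.Vv

/-! Real-number soundness of the box checks. -/

namespace Vale.Agent.P322
open Real Set

lemma rho_mono {a b : ℝ} (ha : 0 ≤ a) (hab : a ≤ b) (hb : b < 1) :
    2 / (1 - a ^ 2) ≤ 2 / (1 - b ^ 2) :=
  div_le_div_of_nonneg_left (by norm_num) (om_pos (by linarith) hb) (by nlinarith)

/-- convex combination of the two lower bounds kills `v` -/
lemma comb {d1 d x Q v θ y : ℝ} (h : Hyp d x Q v) (hd1 : 0 < d1) (h1 : d1 ≤ d) (hd : d < 1)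
    (hθ0 : 0 ≤ θ) (hθ1 : θ ≤ 1)
    (hc : 2 * θ + (1 - θ) * sg d1 ≤ (1 - θ) * (2 / (1 - d1 ^ 2))) (hy0 : 0 < y) (hy : y < 1) :
    θ * (d * kk y - al y * Hh x - 2 * Ph d) + (1 - θ) * (Gg d + sg d1 * (Ph x - Ph d)) ≤ Q := by
  have a := mul_le_mul_of_nonneg_left (h.hA y hy0 hy) hθ0
  have b := mul_le_mul_of_nonneg_left (h.hB (sg d1) (sg_nonneg _) (sg_mono hd1.le h1))
    (show 0 ≤ 1 - θ by linarith)
  have c := mul_le_mul_of_nonneg_left (rho_mono hd1.le h1 hd) (show 0 ≤ 1 - θ by linarith)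
  have e := mul_le_mul_of_nonneg_right (hc.trans c) h.v0
  nlinarith

lemma strip_sound {d1 d2 xs θ d x : ℝ} (hd1 : 0 < d1) (h1 : d1 ≤ d) (h2 : d ≤ d2) (hd2 : d2 < 1)
    (hdx : d ≤ x) (hx : x ≤ xs) (hxs : xs < 1) (hθ0 : 0 ≤ θ) (hθ1 : θ ≤ 1)
    (hc : 2 * θ + (1 - θ) * sg d1 ≤ (1 - θ) * (2 / (1 - d1 ^ 2)))
    (hL : Ll d2 ≤ θ * al d1 + (1 - θ) * sg d1)
    (hG : Gg xs + (θ * al d1 + (1 - θ) * sg d1) * Ph d2 ≤
      Gg d2 + (θ * al d1 + (1 - θ) * sg d1) * Ph xs) : Good d x := by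
  intro Q v h
  left
  have hd0 : 0 < d := by linarith
  have hd : d < 1 := by linarith
  have k := comb h hd1 h1 hd hθ0 hθ1 hc hd0 hd
  set β := θ * al d1 + (1 - θ) * sg d1 with hβ
  have t1 := tangent hd0.le hd (by linarith) hd2
  have t2 := Ph_mono hd0.le h2 hd2.le
  have t3 : Gg xs - β * Ph xs ≤ Gg d - β * Ph d := by nlinarith
  have t4 := chord hd0 hdx hx hxs le_rfl t3
  have e : d * kk d - al d * Hh x - 2 * Ph d = Gg d + al d * (Ph x - Ph d) := by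
    unfold kk Gg Hh; field_simp; ring
  have t5 := Ph_mono hd0.le hdx (by linarith)
  have t6 := mul_le_mul_of_nonneg_right (al_mono hd1 h1 hd) (show 0 ≤ Ph x - Ph d by linarith)
  have t7 := mul_le_mul_of_nonneg_left t6 hθ0
  rw [e] at k
  nlinarith

def ZZ (L2 g2 : ℝ) : Prop := (L2 = 0 ∧ g2 = 0) ∨ ∃ z, 0 < z ∧ z < 1 ∧ L2 = Ll z ∧ g2 = gam z

lemma ZZ.g0 {L2 g2 : ℝ} (h : ZZ L2 g2) : 0 ≤ g2 := by
  rcases h with ⟨_, h⟩ | ⟨z, a, b, _, h⟩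
  · exact h.ge
  · rw [h]; exact gam_nonneg a b

lemma ZZ.fin {L2 g2 d x Q : ℝ} (h : ZZ L2 g2) (k : Gg x + L2 * Hh x ≤ Q + (1 - d ^ 2) * g2) :
    Gg x ≤ Q ∨ ∃ z, 0 < z ∧ z < 1 ∧ Gg x + Ll z * Hh x ≤ Q + (1 - d ^ 2) * gam z := by
  rcases h with ⟨rfl, rfl⟩ | ⟨z, a, b, rfl, rfl⟩
  · left; simpa using k
  · right; exact ⟨z, a, b, k⟩

lemma conv_d {d1 d2 d A B C E : ℝ} (hd1 : 0 < d1) (h1 : d1 ≤ d) (h2 : d ≤ d2) (hd2 : d2 < 1)
    (hA : 0 ≤ A) (hB : 0 ≤ B) (c1 : A * Ph d1 + B * d1 ^ 2 + C * d1 ≤ E)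
    (c2 : A * Ph d2 + B * d2 ^ 2 + C * d2 ≤ E) : A * Ph d + B * d ^ 2 + C * d ≤ E := by
  have t1 := mul_le_mul_of_nonneg_left
    (Ph_tan (x := d1) (z := d) (by linarith) (by linarith) (by linarith) (by linarith)) hA
  have t2 := mul_le_mul_of_nonneg_left
    (Ph_tan (x := d2) (z := d) (by linarith) (by linarith) (by linarith) (by linarith)) hA
  exact le_of_tan (s := A * At d + 2 * B * d + C) h1 h2
    (by nlinarith [mul_nonneg hB (sq_nonneg (d1 - d))])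
    (by nlinarith [mul_nonneg hB (sq_nonneg (d2 - d))]) c1 c2

def CF (θ y d1 L2 g2 d x : ℝ) : Prop :=
  θ * (al y * Hh x + 2 * Ph d) + (1 - θ) * (sg d1 * Ph d) + (Gg x + L2 * Hh x) ≤
    θ * (d * kk y) + (1 - θ) * (Gg d1 + Ll d1 * At d1 * (d - d1) + sg d1 * Ph x) +
      (1 - d ^ 2) * g2

lemma boxF_sound {d1 d2 xl xh θ y L2 g2 d x : ℝ} (hd1 : 0 < d1) (h1 : d1 ≤ d) (h2 : d ≤ d2)
    (hd2 : d2 < 1) (hxl : 0 < xl) (hx1 : xl ≤ x) (hx2 : x ≤ xh) (hxh : xh < 1)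
    (hθ0 : 0 ≤ θ) (hθ1 : θ ≤ 1)
    (hc : 2 * θ + (1 - θ) * sg d1 ≤ (1 - θ) * (2 / (1 - d1 ^ 2))) (hy0 : 0 < y) (hy : y < 1)
    (hz : ZZ L2 g2) (c11 : CF θ y d1 L2 g2 d1 xl) (c21 : CF θ y d1 L2 g2 d2 xl)
    (c12 : CF θ y d1 L2 g2 d1 xh) (c22 : CF θ y d1 L2 g2 d2 xh) : Good d x := by
  intro Q v h
  apply hz.fin
  have hd : d < 1 := by linarith
  have k := comb h hd1 h1 hd hθ0 hθ1 hc hy0 hy
  have hs := sg_nonneg d1
  have hA : 0 ≤ 2 * θ + (1 - θ) * sg d1 := by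
    have := mul_nonneg (show 0 ≤ 1 - θ by linarith) hs; linarith
  have ext : ∀ x', CF θ y d1 L2 g2 d1 x' → CF θ y d1 L2 g2 d2 x' → CF θ y d1 L2 g2 d x' := by
    intro x' a b
    have := conv_d (C := -(θ * kk y) - (1 - θ) * (Ll d1 * At d1))
      (E := (1 - θ) * (Gg d1 - Ll d1 * At d1 * d1 + sg d1 * Ph x') + g2 - θ * (al y * Hh x') -
        (Gg x' + L2 * Hh x')) hd1 h1 h2 hd2 hA hz.g0 (by unfold CF at a; linarith)
        (by unfold CF at b; linarith)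
    unfold CF; linarith
  have a := ext xl c11 c21
  have b := ext xh c12 c22
  have c := chord (β := θ * al y + L2 + (1 - θ) * sg d1)
    (c := θ * (d * kk y) + (1 - θ) * (Gg d1 + Ll d1 * At d1 * (d - d1)) + (1 - d ^ 2) * g2 -
      θ * (al y * log 2 + 2 * Ph d) - (1 - θ) * (sg d1 * Ph d) - L2 * log 2) hxl hx1 hx2 hxh
    (by unfold CF Hh at a; linarith) (by unfold CF Hh at b; linarith)
  have g := Gg_tan (x := d) (z := d1) (by linarith) hd (by linarith) (by linarith)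
  rw [← Ll_mul hd1 (by linarith)] at g
  have g' := mul_le_mul_of_nonneg_left g (show 0 ≤ 1 - θ by linarith)
  unfold Hh at *
  linarith

def CV (y L2 g2 d x : ℝ) : Prop :=
  al y * Hh x + 2 * Jh d + (Gg x + L2 * Hh x) ≤ d * kk y + (1 - d ^ 2) * g2

lemma boxV_sound {d1 d2 xl xh y L2 g2 d x : ℝ} (hd1 : 1 / 2 < d1) (h1 : d1 ≤ d) (h2 : d ≤ d2)
    (hd2 : d2 < 1) (hxl : 0 < xl) (hx1 : xl ≤ x) (hx2 : x ≤ xh) (hxh : xh < 1)
    (hy0 : 0 < y) (hy : y < 1)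
    (hz : ZZ L2 g2) (c11 : CV y L2 g2 d1 xl) (c21 : CV y L2 g2 d2 xl)
    (c12 : CV y L2 g2 d1 xh) (c22 : CV y L2 g2 d2 xh) : Good d x := by
  intro Q v h
  apply hz.fin
  have hd : d < 1 := by linarith
  have k := h.hA y hy0 hy
  have k2 := h.v3 (by linarith)
  have hg := hz.g0
  have tn : ∀ e, 1 / 2 < e → e < 1 → 2 * Jh d + g2 * d ^ 2 +
      (log 2 + lc (2 * d - 1) + At (2 * d - 1) + 2 * g2 * d) * (e - d) ≤ 2 * Jh e + g2 * e ^ 2 := by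
    intro e a b
    have t1 := ph1_tan (x := 2 * e - 1) (z := 2 * d - 1) (by linarith) (by linarith)
      (by linarith) (by linarith)
    have t2 := Ph_tan (x := 2 * e - 1) (z := 2 * d - 1) (by linarith) (by linarith)
      (by linarith) (by linarith)
    unfold Jh
    nlinarith [mul_nonneg hg (sq_nonneg (e - d))]
  have ext : ∀ x', CV y L2 g2 d1 x' → CV y L2 g2 d2 x' → CV y L2 g2 d x' := by
    intro x' a b
    have t1 := tn d1 hd1 (by linarith)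
    have t2 := tn d2 (by linarith) hd2
    have := le_of_tan (Fx := 2 * Jh d + g2 * d ^ 2 - d * kk y)
      (Fa := 2 * Jh d1 + g2 * d1 ^ 2 - d1 * kk y) (Fb := 2 * Jh d2 + g2 * d2 ^ 2 - d2 * kk y)
      (s := log 2 + lc (2 * d - 1) + At (2 * d - 1) + 2 * g2 * d - kk y)
      (c := g2 - al y * Hh x' - (Gg x' + L2 * Hh x')) h1 h2 (by linarith) (by linarith)
      (by unfold CV at a; linarith) (by unfold CV at b; linarith)
    unfold CV; linarith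
  have a := ext xl c11 c21
  have b := ext xh c12 c22
  have c := chord (β := al y + L2)
    (c := d * kk y + (1 - d ^ 2) * g2 - al y * log 2 - 2 * Jh d - L2 * log 2) hxl hx1 hx2 hxh
    (by unfold CV Hh at a; linarith) (by unfold CV Hh at b; linarith)
  unfold Hh at *
  linarith

end Vale.Agent.P322
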