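import Vale.Agent.P322.Num

/-! Executable box checks and their soundness. -/

namespace Vale.Agent.P322
open Real Set Iv

def up (n : ℕ) : ℕ := Nat.mul n 16777216

noncomputable def rr (n : ℕ) : ℝ := (up n : ℝ) / SS

lemma rr_eq (n : ℕ) : rr n = n / 16777216 := by
  unfold rr up SS; simp only [Nat.mul_eq]; push_cast; ring

noncomputable def mkN (n : ℕ) : Pt := mkP (up n)

lemma mkN_ok {n : ℕ} (h : (mkN n).ok = true) : PtOk (rr n) (mkN n) := mkP_ok h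

lemma mem_up (n : ℕ) : Mem (rr n) (pt (up n)) := mem_pt _

structure Col where
  d1 : Pt
  d2 : Pt
  TH : Iv
  OT : Iv
  sg : Iv
  g2 : Iv
  J1 : Iv
  J2 : Iv
  okJ : Bool

def jh2 (d s : Pt) : Iv := add (mul d.X ln2) (half (add (dv s.Ph s.X) s.Ph))

noncomputable def mkCol2 (n1 n2 th : ℕ) (d1 d2 s1 s2 : Pt) : Col :=
  { d1 := d1, d2 := d2, TH := pt (up th), OT := pt (up (Nat.sub 16777216 th)),
    sg := dv d1.XX (add ln2 (half d1.XX)),
    g2 := add d1.G (mul (mul d1.L d1.A) (pt (up (Nat.sub n2 n1)))),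
    J1 := jh2 d1 s1, J2 := jh2 d2 s2,
    okJ := Nat.blt 16777216 (Nat.mul 2 n1) && s1.ok && s2.ok }

noncomputable def mkCol (n1 n2 th : ℕ) : Col :=
  mkCol2 n1 n2 th (mkN n1) (mkN n2) (mkN (Nat.sub (Nat.mul 2 n1) 16777216))
    (mkN (Nat.sub (Nat.mul 2 n2) 16777216))

def colOk (n1 n2 th : ℕ) (c : Col) : Bool :=
  c.d1.ok && c.d2.ok && Nat.ble n1 n2 && Nat.ble th 16777216 &&
    le (add (dbl c.TH) (mul c.OT c.sg)) (mul c.OT (dv two c.d1.Om))

structure ColOk (d1 d2 θ : ℝ) (c : Col) : Prop where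
  p1 : PtOk d1 c.d1
  p2 : PtOk d2 c.d2
  t0 : 0 ≤ θ
  t1 : θ ≤ 1
  TH : Mem θ c.TH
  OT : Mem (1 - θ) c.OT
  sgm : Mem (sg d1) c.sg
  g2 : Mem (Gg d1 + Ll d1 * At d1 * (d2 - d1)) c.g2
  hc : 2 * θ + (1 - θ) * sg d1 ≤ (1 - θ) * (2 / (1 - d1 ^ 2))
  J : c.okJ = true → 1 / 2 < d1 ∧ Mem (2 * Jh d1) c.J1 ∧ Mem (2 * Jh d2) c.J2

lemma mem_jh2 {d : ℝ} {D S : Pt} (h1 : PtOk d D) (h2 : PtOk (2 * d - 1) S) :
    Mem (2 * Jh d) (jh2 D S) :=
  (mem_add (mem_mul h1.X mem_ln2) (mem_half (mem_add (mem_dv h2.Ph h2.X h2.xp) h2.Ph))).congr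
    (by unfold Jh ph1; ring)

lemma rr_sub {a b : ℕ} (h : b ≤ a) : rr (Nat.sub a b) = rr a - rr b := by
  simp only [rr_eq, Nat.sub_eq]; rw [Nat.cast_sub h]; ring

lemma colOk_sound {n1 n2 th : ℕ} (h : colOk n1 n2 th (mkCol n1 n2 th) = true) :
    ColOk (rr n1) (rr n2) (rr th) (mkCol n1 n2 th) := by
  simp only [colOk, Bool.and_eq_true, Nat.ble_eq] at h
  obtain ⟨⟨⟨⟨h1, h2⟩, h3⟩, h4⟩, h5⟩ := h
  have p1 : PtOk (rr n1) (mkN n1) := mkN_ok h1
  have p2 : PtOk (rr n2) (mkN n2) := mkN_ok h2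
  have e1 : rr 16777216 = 1 := by rw [rr_eq]; norm_num
  have mOT : Mem (1 - rr th) (pt (up (Nat.sub 16777216 th))) :=
    (mem_up _).congr (by rw [rr_sub h4, e1])
  have ms : Mem (sg (rr n1)) (dv (mkN n1).XX (add ln2 (half (mkN n1).XX))) :=
    mem_dv p1.XX (mem_add mem_ln2 (mem_half p1.XX)) (by
      show 0 < 195103586431999 + _; omega)
  refine ⟨p1, p2, by rw [rr_eq]; positivity, ?_, mem_up _, mOT, ms, ?_, ?_, ?_⟩
  · rw [rr_eq, div_le_one (by norm_num)]; exact_mod_cast h4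
  · exact mem_add p1.G (mem_mul (mem_mul p1.L p1.A) ((mem_up _).congr (rr_sub h3)))
  · exact le_sound (mem_add (mem_dbl (mem_up _)) (mem_mul mOT ms))
      (mem_mul mOT (mem_dv mem_two p1.Om p1.om)) h5
  · intro hJ
    simp only [mkCol, mkCol2, Bool.and_eq_true, Nat.blt_eq] at hJ
    obtain ⟨⟨j1, j2⟩, j3⟩ := hJ
    have j1' : 16777216 < 2 * n1 := j1
    have ee : ∀ n, 16777216 ≤ 2 * n → rr (Nat.sub (Nat.mul 2 n) 16777216) = 2 * rr n - 1 := by
      intro n hn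
      rw [rr_sub (show 16777216 ≤ Nat.mul 2 n from hn), e1]
      simp only [rr_eq, Nat.mul_eq]; push_cast; ring
    refine ⟨?_, mem_jh2 p1 (ee n1 j1'.le ▸ mkN_ok j2), mem_jh2 p2 (ee n2 (by omega) ▸ mkN_ok j3)⟩
    rw [rr_eq, lt_div_iff₀ (by norm_num)]
    have : (16777216 : ℝ) < 2 * n1 := by exact_mod_cast j1'
    linarith

def stripChk (c : Col) (x : Pt) : Bool :=
  x.ok && le c.d2.L (add (mul c.TH c.d1.al) (mul c.OT c.sg)) &&
    le (add x.G (mul (add (mul c.TH c.d1.al) (mul c.OT c.sg)) c.d2.Ph))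
      (add c.d2.G (mul (add (mul c.TH c.d1.al) (mul c.OT c.sg)) x.Ph))

def cF (c : Col) (Y : Pt) (L2 g2 : Iv) (d : Pt) (gb : Iv) (x : Pt) : Bool :=
  le (add (add (mul c.TH (add (mul Y.al x.H) (dbl d.Ph))) (mul c.OT (mul c.sg d.Ph)))
      (add x.G (mul L2 x.H)))
    (add (add (mul c.TH (mul d.X Y.k)) (mul c.OT (add gb (mul c.sg x.Ph)))) (mul d.Om g2))

def cV (Y : Pt) (L2 g2 : Iv) (d : Pt) (J : Iv) (x : Pt) : Bool :=
  le (add (add (mul Y.al x.H) J) (add x.G (mul L2 x.H))) (add (mul d.X Y.k) (mul d.Om g2))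

lemma cF_sound {d1 d2 θ y L2 g2 d x : ℝ} {c : Col} {Y D X : Pt} {iL ig gb : Iv}
    (hc : ColOk d1 d2 θ c) (hY : PtOk y Y) (hL : Mem L2 iL) (hg : Mem g2 ig) (hD : PtOk d D)
    (hb : Mem (Gg d1 + Ll d1 * At d1 * (d - d1)) gb) (hX : PtOk x X)
    (h : cF c Y iL ig D gb X = true) : CF θ y d1 L2 g2 d x :=
  le_sound (mem_add (mem_add (mem_mul hc.TH (mem_add (mem_mul hY.al hX.H) (mem_dbl hD.Ph)))
      (mem_mul hc.OT (mem_mul hc.sgm hD.Ph))) (mem_add hX.G (mem_mul hL hX.H)))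
    (mem_add (mem_add (mem_mul hc.TH (mem_mul hD.X hY.k))
      (mem_mul hc.OT (mem_add hb (mem_mul hc.sgm hX.Ph)))) (mem_mul hD.Om hg)) h

lemma cV_sound {y L2 g2 d x : ℝ} {Y D X : Pt} {iL ig J : Iv}
    (hY : PtOk y Y) (hL : Mem L2 iL) (hg : Mem g2 ig) (hD : PtOk d D)
    (hb : Mem (2 * Jh d) J) (hX : PtOk x X)
    (h : cV Y iL ig D J X = true) : CV y L2 g2 d x :=
  le_sound (mem_add (mem_add (mem_mul hY.al hX.H) hb) (mem_add hX.G (mem_mul hL hX.H)))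
    (mem_add (mem_mul hD.X hY.k) (mem_mul hD.Om hg)) h

def box2 (c : Col) (md : Bool) (Y : Pt) (L2 g2 : Iv) (xl xh : Pt) : Bool :=
  Y.ok && xh.ok && cond md
    (c.okJ && cV Y L2 g2 c.d1 c.J1 xl && cV Y L2 g2 c.d2 c.J2 xl &&
      cV Y L2 g2 c.d1 c.J1 xh && cV Y L2 g2 c.d2 c.J2 xh)
    (cF c Y L2 g2 c.d1 c.d1.G xl && cF c Y L2 g2 c.d2 c.g2 xl &&
      cF c Y L2 g2 c.d1 c.d1.G xh && cF c Y L2 g2 c.d2 c.g2 xh)

def box1 (c : Col) (md : Bool) (Y : Pt) (z0 : Bool) (Z : Pt) (xl xh : Pt) : Bool :=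
  cond z0 (box2 c md Y zero zero xl xh) (Z.ok && box2 c md Y Z.L Z.gam xl xh)

lemma box2_sound {d1 d2 θ L2 g2 xl y xh : ℝ} {c : Col} {md : Bool} {iL ig : Iv} {XL Y XH : Pt}
    (hc : ColOk d1 d2 θ c) (hL : Mem L2 iL) (hg : Mem g2 ig) (hz : ZZ L2 g2) (hX : PtOk xl XL)
    (hY : Y.ok = true → PtOk y Y) (hH : XH.ok = true → PtOk xh XH)
    (h : box2 c md Y iL ig XL XH = true) :
    PtOk xh XH ∧ ∀ d x, d1 ≤ d → d ≤ d2 → xl ≤ x → x ≤ xh → Good d x := by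
  simp only [box2, Bool.and_eq_true] at h
  obtain ⟨⟨h1, h2⟩, h3⟩ := h
  have pY := hY h1
  have pH := hH h2
  refine ⟨pH, fun d x a1 a2 a3 a4 => ?_⟩
  cases md with
  | true =>
    simp only [cond_true, Bool.and_eq_true] at h3
    obtain ⟨⟨⟨⟨j, c1⟩, c2⟩, c3⟩, c4⟩ := h3
    obtain ⟨j1, j2, j3⟩ := hc.J j
    exact boxV_sound j1 a1 a2 hc.p2.p1 hX.p0 a3 a4 pH.p1 pY.p0 pY.p1 hz
      (cV_sound pY hL hg hc.p1 j2 hX c1) (cV_sound pY hL hg hc.p2 j3 hX c2)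
      (cV_sound pY hL hg hc.p1 j2 pH c3) (cV_sound pY hL hg hc.p2 j3 pH c4)
  | false =>
    simp only [cond_false, Bool.and_eq_true] at h3
    obtain ⟨⟨⟨c1, c2⟩, c3⟩, c4⟩ := h3
    have g1 : Mem (Gg d1 + Ll d1 * At d1 * (d1 - d1)) c.d1.G := hc.p1.G.congr (by ring)
    exact boxF_sound hc.p1.p0 a1 a2 hc.p2.p1 hX.p0 a3 a4 pH.p1 hc.t0 hc.t1 hc.hc pY.p0 pY.p1 hz
      (cF_sound hc pY hL hg hc.p1 g1 hX c1) (cF_sound hc pY hL hg hc.p2 hc.g2 hX c2)
      (cF_sound hc pY hL hg hc.p1 g1 pH c3) (cF_sound hc pY hL hg hc.p2 hc.g2 pH c4)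

lemma box1_sound {d1 d2 θ xl y z xh : ℝ} {c : Col} {md z0 : Bool} {XL Y Z XH : Pt}
    (hc : ColOk d1 d2 θ c) (hX : PtOk xl XL)
    (hY : Y.ok = true → PtOk y Y) (hZ : Z.ok = true → PtOk z Z) (hH : XH.ok = true → PtOk xh XH)
    (h : box1 c md Y z0 Z XL XH = true) :
    PtOk xh XH ∧ ∀ d x, d1 ≤ d → d ≤ d2 → xl ≤ x → x ≤ xh → Good d x := by
  cases z0 with
  | true => exact box2_sound hc mem_zero mem_zero (Or.inl ⟨rfl, rfl⟩) hX hY hH h
  | false =>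
    simp only [box1, cond_false, Bool.and_eq_true] at h
    have pZ := hZ h.1
    exact box2_sound hc pZ.L pZ.gam (Or.inr ⟨_, pZ.p0, pZ.p1, rfl, rfl⟩) hX hY hH h.2

structure Bx where
  md : Bool
  y : ℕ
  z : ℕ
  h : ℕ

noncomputable def chain (c : Col) (top : ℕ) (bs : List Bx) : ℕ → Pt → Bool :=
  List.rec (fun nl _ => Nat.ble top nl) (fun b _ ih _ XL =>
    box1 c b.md (mkN b.y) (Nat.beq b.z 0) (mkN b.z) XL (mkN b.h) && ih b.h (mkN b.h)) bs

lemma chain_sound {d1 d2 θ : ℝ} {c : Col} (hc : ColOk d1 d2 θ c) {top : ℕ} (bs : List Bx) :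
    ∀ (nl : ℕ) (XL : Pt), PtOk (rr nl) XL → chain c top bs nl XL = true →
      ∀ d x, d1 ≤ d → d ≤ d2 → rr nl < x → x ≤ rr top → Good d x := by
  induction bs with
  | nil =>
    intro nl XL _ h d x _ _ a b
    have : top ≤ nl := Nat.le_of_ble_eq_true h
    have : (top : ℝ) ≤ nl := by exact_mod_cast this
    rw [rr_eq] at a b; linarith
  | cons b bs ih =>
    intro nl XL hX h d x a1 a2 a3 a4
    have h' : (box1 c b.md (mkN b.y) (Nat.beq b.z 0) (mkN b.z) XL (mkN b.h) &&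
      chain c top bs b.h (mkN b.h)) = true := h
    rw [Bool.and_eq_true] at h'
    obtain ⟨p, q⟩ := box1_sound hc hX mkN_ok mkN_ok mkN_ok h'.1
    rcases le_or_gt x (rr b.h) with k | k
    · exact q d x a1 a2 a3.le k
    · exact ih _ _ p h'.2 d x a1 a2 k a4

structure Cd where
  n2 : ℕ
  th : ℕ
  xs : ℕ
  bs : List Bx

noncomputable def colChk2 (n1 top : ℕ) (e : Cd) (c : Col) (X : Pt) : Bool :=
  colOk n1 e.n2 e.th c && stripChk c X && chain c top e.bs e.xs X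

noncomputable def colChk (n1 top : ℕ) (e : Cd) : Bool :=
  colChk2 n1 top e (mkCol n1 e.n2 e.th) (mkN e.xs)

lemma colChk2_sound {n1 top : ℕ} {e : Cd} {c : Col} {X : Pt}
    (hcc : colOk n1 e.n2 e.th c = true → ColOk (rr n1) (rr e.n2) (rr e.th) c)
    (hXX : X.ok = true → PtOk (rr e.xs) X) (h : colChk2 n1 top e c X = true) :
    ∀ d x, rr n1 ≤ d → d ≤ rr e.n2 → d ≤ x → x ≤ rr top → Good d x := by
  simp only [colChk2, stripChk, Bool.and_eq_true] at h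
  obtain ⟨⟨h1, ⟨h2, h3⟩, h4⟩, h5⟩ := h
  have hc := hcc h1
  have pX := hXX h2
  intro d x a1 a2 a3 a4
  rcases le_or_gt x (rr e.xs) with k | k
  · have mb := mem_add (mem_mul hc.TH hc.p1.al) (mem_mul hc.OT hc.sgm)
    exact strip_sound hc.p1.p0 a1 a2 hc.p2.p1 a3 k pX.p1 hc.t0 hc.t1 hc.hc
      (le_sound hc.p2.L mb h3)
      (le_sound (mem_add pX.G (mem_mul mb hc.p2.Ph)) (mem_add hc.p2.G (mem_mul mb pX.Ph)) h4)
  · exact chain_sound hc _ _ _ pX h5 d x a1 a2 k a4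

lemma colChk_sound {n1 top : ℕ} {e : Cd} (h : colChk n1 top e = true) :
    ∀ d x, rr n1 ≤ d → d ≤ rr e.n2 → d ≤ x → x ≤ rr top → Good d x :=
  colChk2_sound colOk_sound mkN_ok h

noncomputable def cols (top fin : ℕ) (es : List Cd) : ℕ → Bool :=
  List.rec (fun n => Nat.ble fin n) (fun e _ ih n => colChk n top e && ih e.n2) es

lemma cols_sound {top fin : ℕ} (es : List Cd) : ∀ n, cols top fin es n = true →
    ∀ d x, rr n < d → d ≤ rr fin → d ≤ x → x ≤ rr top → Good d x := by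
  induction es with
  | nil =>
    intro n h d x a b
    have : fin ≤ n := Nat.le_of_ble_eq_true h
    have : (fin : ℝ) ≤ n := by exact_mod_cast this
    rw [rr_eq] at a b; exfalso; linarith
  | cons e es ih =>
    intro n h d x a1 a2 a3 a4
    have h' : (colChk n top e && cols top fin es e.n2) = true := h
    rw [Bool.and_eq_true] at h'
    rcases le_or_gt d (rr e.n2) with k | k
    · exact colChk_sound h'.1 d x a1.le k a3 a4
    · exact ih _ h'.2 d x k a2 a3 a4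

/-! one-dimensional sweeps -/

noncomputable def sweep (f : Pt → Pt → Bool) (top : ℕ) (ns : List ℕ) : ℕ → Pt → Bool :=
  List.rec (fun nl _ => Nat.ble top nl) (fun n _ ih _ XL =>
    (mkN n).ok && f XL (mkN n) && ih n (mkN n)) ns

lemma sweep_sound {f : Pt → Pt → Bool} {R : ℝ → Prop}
    (hf : ∀ a b A B x, PtOk a A → PtOk b B → f A B = true → a ≤ x → x ≤ b → R x) {top : ℕ}
    (ns : List ℕ) : ∀ (nl : ℕ) (XL : Pt), PtOk (rr nl) XL → sweep f top ns nl XL = true →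
      ∀ x, rr nl < x → x ≤ rr top → R x := by
  induction ns with
  | nil =>
    intro nl XL _ h x a b
    have : top ≤ nl := Nat.le_of_ble_eq_true h
    have : (top : ℝ) ≤ nl := by exact_mod_cast this
    rw [rr_eq] at a b; linarith
  | cons n ns ih =>
    intro nl XL hX h x a3 a4
    have h' : ((mkN n).ok && f XL (mkN n) && sweep f top ns n (mkN n)) = true := h
    simp only [Bool.and_eq_true] at h'
    have p := mkN_ok h'.1.1
    rcases le_or_gt x (rr n) with k | k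
    · exact hf _ _ _ _ x hX p h'.1.2 a3.le k
    · exact ih _ _ p h'.2 x k a4

/-- `0.6945`, `0.00174`, `0.6`, `1.076` as intervals -/
def k1 : Iv := ⟨195484371325550, 195484371325551⟩
def k2 : Iv := ⟨489766459476, 489766459477⟩
def k3 : Iv := ⟨168884986026393, 168884986026394⟩
def k4 : Iv := ⟨302867074940665, 302867074940666⟩

lemma mem_k1 : Mem 0.6945 k1 := by simp only [Mem, k1, SS]; norm_num
lemma mem_k2 : Mem 0.00174 k2 := by simp only [Mem, k2, SS]; norm_num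
lemma mem_k3 : Mem 0.6 k3 := by simp only [Mem, k3, SS]; norm_num
lemma mem_k4 : Mem 1.076 k4 := by simp only [Mem, k4, SS]; norm_num

def f1 (A B : Pt) : Bool := le (add (mul B.gam k1) k2) A.Ph

lemma f1_sound (a b : ℝ) (A B : Pt) (x : ℝ) (ha : PtOk a A) (hb : PtOk b B) (h : f1 A B = true)
    (h1 : a ≤ x) (h2 : x ≤ b) : gam x * 0.6945 + 0.00174 ≤ Ph x := by
  have := le_sound (mem_add (mem_mul hb.gam mem_k1) mem_k2) ha.Ph h
  have := gam_mono (ha.p0.trans_le h1) h2 hb.p1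
  have := Ph_mono ha.p0.le h1 (h2.trans hb.p1.le)
  linarith

noncomputable def f2 (A B : Pt) : Bool :=
  Nat.blt 0 A.H.hi && Nat.ble A.H.hi 234100000000000 &&
    le (mul k3 (add B.gam k4)) (logI 234100000000000 A.H.hi)

lemma f2_sound (a b : ℝ) (A B : Pt) (x : ℝ) (ha : PtOk a A) (hb : PtOk b B) (h : f2 A B = true)
    (h1 : a ≤ x) (h2 : x ≤ b) : 0.6 * (gam x + 1.076) ≤ log (1.2 * log 2 / Hh x) := by
  simp only [f2, Bool.and_eq_true, Nat.blt_eq, Nat.ble_eq] at h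
  obtain ⟨⟨a1, a2⟩, a3⟩ := h
  have t := le_sound (mem_mul mem_k3 (mem_add hb.gam mem_k4)) (mem_logI a1 a2) a3
  have := gam_mono (ha.p0.trans_le h1) h2 hb.p1
  have hH := Hh_anti ha.p0.le h1 (h2.trans hb.p1.le)
  have hp := Hh_pos (x := x) (by linarith [ha.p0]) (h2.trans_lt hb.p1)
  have r1 : (0 : ℝ) < A.H.hi := by exact_mod_cast a1
  have h3 := ha.H.2
  have := l2lo
  have : log (((234100000000000 : ℕ) : ℝ) / A.H.hi) ≤ log (1.2 * log 2 / Hh x) := by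
    apply log_le_log (by positivity)
    rw [div_le_div_iff₀ r1 hp]
    unfold SS at h3; push_cast at h3 ⊢
    nlinarith
  linarith

end Vale.Agent.P322
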