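import Vale.Agent.P322.Step

/-! Entropy production on the cube. -/

namespace Vale.Agent.P322
open Real Set

lemma inv_step {μ d e0 e1 D0 D1 Ek Ej W : ℝ} (hd : 0 ≤ d) (h1 : -1 < μ - d) (h2 : μ + d < 1)
    (he : 0 < (e0 + e1) / 2) (f1 : KK μ d ≤ Ek - 2 * Ej)
    (f2 : JJ μ d + (d / (1 - μ ^ 2)) ^ 2 / 2 * (1 - μ ^ 2 - W) ≤ Ej)
    (f3 : log 2 * W ≤ (e0 + e1) / 2 + Ej)
    (f3' : Hh μ - ((e0 + e1) / 2 + Ej) ≤ (1 - μ ^ 2 - W) / (1 - μ ^ 2))
    (f4 : ∀ y, 0 < y → y < 1 → kk y * d ≤ Ek + al y * ((e0 + e1) / 2)) (f5 : W ≤ 1 - μ ^ 2)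
    (I0 : Inv D0 (μ + d) e0) (I1 : Inv D1 (μ - d) e1) :
    Inv (Ek + (D0 + D1) / 2) μ ((e0 + e1) / 2) := by
  have p1 : 0 < 1 + μ := by linarith
  have p2 : 0 < 1 - μ := by linarith
  have w0 := om_pos (x := μ) (by linarith) (by linarith)
  have s0 : 0 ≤ d / (1 + μ) := by positivity
  have t0 : 0 ≤ d / (1 - μ) := by positivity
  have s1 := (sp_mem (a := μ) (d := d) (by linarith) h2 h1 (by linarith)).2
  have t1 := (sm_mem (a := μ) (d := d) (by linarith) h2 h1 (by linarith)).2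
  have eJ : JJ μ d = Hh μ - (Hh (μ + d) + Hh (μ - d)) / 2 := by
    rw [← jj_eq (by linarith) h2 h1 (by linarith)]
    unfold jj Hh; rw [show (μ + d + (μ - d)) / 2 = μ by ring]; ring
  have K0 : 0 ≤ KK μ d := by
    have := Gg_nonneg s0 s1
    have := Gg_nonneg t0 t1
    unfold KK; positivity
  have J0 : 0 ≤ JJ μ d := by
    have := Ph_nonneg (x := d / (1 + μ)) (by linarith) s1.le
    have := Ph_nonneg (x := d / (1 - μ)) (by linarith) t1.le
    unfold JJ; positivity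
  have X1 : 0 ≤ (d / (1 - μ ^ 2)) ^ 2 / 2 * (1 - μ ^ 2 - W) :=
    mul_nonneg (by positivity) (by linarith)
  have n0 := I0.nn
  have n1 := I1.nn
  refine ⟨by linarith, fun x x0 x1 => ?_, fun x x0 x1 => ?_⟩
  · rcases hd.eq_or_lt with rfl | hd'
    · have a := I0.t8 x x0 x1
      have b := I1.t8 x x0 x1
      simp only [add_zero, sub_zero] at a b eJ ⊢
      linarith
    obtain ⟨m, m0, m1, m2, m3, m4⟩ := JK_scale hd' h1 h2
    have := t8_step (X := Ej - JJ μ d)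
      (R := (D0 - 2 * (Hh (μ + d) - e0) + (D1 - 2 * (Hh (μ - d) - e1))) / 2) w0
      (by nlinarith [sq_nonneg μ]) hd' m m0 m1 m2 m3 m4 he (by linarith) (by linarith) (by
        have a := mul_le_mul_of_nonneg_left (show (1 - μ ^ 2) * log 2 - (e0 + e1) / 2 - JJ μ d -
          (Ej - JJ μ d) ≤ log 2 * (1 - μ ^ 2 - W) by linarith)
          (show 0 ≤ (d / (1 - μ ^ 2)) ^ 2 / 2 by positivity)
        have b := mul_le_mul_of_nonneg_left (show (d / (1 - μ ^ 2)) ^ 2 / 2 * (1 - μ ^ 2 - W) ≤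
          Ej - JJ μ d by linarith) l2pos.le
        linarith) f4 (by linarith) (fun z z0 z1 => by
        have a := I0.t8 z z0 z1
        have b := I1.t8 z z0 z1
        linarith) x0 x1
    linarith
  · have := s1_step (K := KK μ d) (J := JJ μ d) (X := Ej - JJ μ d) (η := d ^ 2 / (1 - μ ^ 2) / 2)
      (I := (Hh (μ + d) - e0 + (Hh (μ - d) - e1)) / 2)
      (R := (D0 - 2 * (Hh (μ + d) - e0) + (D1 - 2 * (Hh (μ - d) - e1))) / 2) x0 x1
      (fun z z0 z1 => by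
        have a := mul_le_mul_of_nonneg_left (tangent s0 s1 z0 z1) p1.le
        have b := mul_le_mul_of_nonneg_left (tangent t0 t1 z0 z1) p2.le
        unfold KK JJ; linarith) K0 (by
        have a := mul_le_mul_of_nonneg_left (Gg_ge2 s0 s1) p1.le
        have b := mul_le_mul_of_nonneg_left (Gg_ge2 t0 t1) p2.le
        have e : d ^ 2 / (1 - μ ^ 2) =
            ((1 + μ) * (d / (1 + μ)) ^ 2 + (1 - μ) * (d / (1 - μ)) ^ 2) / 2 := by
          rw [show 1 - μ ^ 2 = (1 + μ) * (1 - μ) by ring]; field_simp; ring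
        rw [e]; unfold KK JJ; linarith) J0 (fun z z0 z1 => by
        have a := I0.s1 z z0 z1
        have b := I1.s1 z z0 z1
        linarith) (by linarith) (by linarith) (by
        have a := mul_le_mul_of_nonneg_left f3' (show 0 ≤ d ^ 2 / (1 - μ ^ 2) / 2 by positivity)
        have e : d ^ 2 / (1 - μ ^ 2) / 2 * ((1 - μ ^ 2 - W) / (1 - μ ^ 2)) =
            (d / (1 - μ ^ 2)) ^ 2 / 2 * (1 - μ ^ 2 - W) := by field_simp
        rw [e] at a
        have e2 : (Hh (μ + d) - e0 + (Hh (μ - d) - e1)) / 2 - (Ej - JJ μ d) =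
            Hh μ - ((e0 + e1) / 2 + Ej) := by rw [eJ]; ring
        rw [e2]; linarith) (by positivity)
    have e2 : (Hh (μ + d) - e0 + (Hh (μ - d) - e1)) / 2 + JJ μ d = Hh μ - (e0 + e1) / 2 := by
      rw [eJ]; ring
    rw [e2] at this
    linarith

abbrev Cu (n : ℕ) := Fin n → ℤˣ

noncomputable def Ex {n : ℕ} (u : Cu n → ℝ) : ℝ := (∑ x, u x) / 2 ^ n

def sl {n : ℕ} (b : ℤˣ) (u : Cu (n + 1) → ℝ) : Cu n → ℝ := fun x => u (Fin.cons b x)

lemma sum_succ {n : ℕ} (u : Cu (n + 1) → ℝ) :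
    ∑ x, u x = ∑ x, u (Fin.cons 1 x) + ∑ x, u (Fin.cons (-1) x) := by
  rw [← (Fin.consEquiv fun _ => ℤˣ).sum_comp, Fintype.sum_prod_type, UnitsInt.univ,
    Finset.sum_pair (by decide)]
  rfl

lemma Ex_succ {n : ℕ} (u : Cu (n + 1) → ℝ) : Ex u = (Ex (sl 1 u) + Ex (sl (-1) u)) / 2 := by
  unfold Ex sl; rw [sum_succ]; ring

lemma Ex_zero (u : Cu 0 → ℝ) : Ex u = u default := by
  unfold Ex; rw [Fintype.sum_unique, pow_zero, div_one]
  exact congrArg u (Subsingleton.elim _ _)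

section
variable {n : ℕ}

lemma Ex_const (c : ℝ) : Ex (fun _ : Cu n => c) = c := by
  simp [Ex, Fintype.card_units_int]

lemma Ex_add (f g : Cu n → ℝ) : Ex (fun x => f x + g x) = Ex f + Ex g := by
  simp only [Ex, Finset.sum_add_distrib, add_div]

lemma Ex_mul (c : ℝ) (f : Cu n → ℝ) : Ex (fun x => c * f x) = c * Ex f := by
  simp only [Ex, ← Finset.mul_sum, mul_div_assoc]

lemma Ex_mono {f g : Cu n → ℝ} (h : ∀ x, f x ≤ g x) : Ex f ≤ Ex g :=
  div_le_div_of_nonneg_right (Finset.sum_le_sum fun x _ => h x) (by positivity)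

lemma Ex_lt {f g : Cu n → ℝ} (h : ∀ x, f x < g x) : Ex f < Ex g :=
  div_lt_div_of_pos_right (Finset.sum_lt_sum_of_nonempty Finset.univ_nonempty fun x _ => h x)
    (by positivity)

lemma Ex_aff {f1 f2 f3 f4 f5 f6 f7 : Cu n → ℝ} (c0 c1 c2 c3 c4 c5 c6 c7 : ℝ)
    (h : ∀ x, 0 ≤ c0 + c1 * f1 x + c2 * f2 x + c3 * f3 x + c4 * f4 x + c5 * f5 x + c6 * f6 x +
      c7 * f7 x) : 0 ≤ c0 + c1 * Ex f1 + c2 * Ex f2 + c3 * Ex f3 + c4 * Ex f4 + c5 * Ex f5 +
      c6 * Ex f6 + c7 * Ex f7 := by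
  have := Ex_mono h
  simpa only [Ex_add, Ex_mul, Ex_const] using this

def In1 (u : Cu n → ℝ) : Prop := ∀ x, -1 < u x ∧ u x < 1

lemma In1.ex {u : Cu n → ℝ} (h : In1 u) : -1 < Ex u ∧ Ex u < 1 := by
  have a := Ex_lt fun x => (h x).1
  have b := Ex_lt fun x => (h x).2
  rw [Ex_const] at a b; exact ⟨a, b⟩

lemma pair_step {p q : Cu n → ℝ} {D0 D1 : ℝ} (hp : In1 p) (hq : In1 q) (hpq : Ex q ≤ Ex p)
    (I0 : Inv D0 (Ex p) (Ex fun x => Hh (p x))) (I1 : Inv D1 (Ex q) (Ex fun x => Hh (q x))) :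
    Inv (Ex (fun x => kap (p x) (q x)) + (D0 + D1) / 2) ((Ex p + Ex q) / 2)
      ((Ex (fun x => Hh (p x)) + Ex fun x => Hh (q x)) / 2) := by
  obtain ⟨μ, hμ⟩ : ∃ μ, μ = (Ex p + Ex q) / 2 := ⟨_, rfl⟩
  obtain ⟨d, hd⟩ : ∃ d, d = (Ex p - Ex q) / 2 := ⟨_, rfl⟩
  have e0 : Ex p = μ + d := by rw [hμ, hd]; ring
  have e1 : Ex q = μ - d := by rw [hμ, hd]; ring
  have b0 := hp.ex
  have b1 := hq.ex
  have A := fun c0 c1 c2 c3 c4 c5 c6 c7 => Ex_aff (f1 := p) (f2 := q)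
    (f3 := fun x => Hh (p x)) (f4 := fun x => Hh (q x)) (f5 := fun x => kap (p x) (q x))
    (f6 := fun x => jj (p x) (q x)) (f7 := fun x => 1 - ((p x + q x) / 2) ^ 2)
    c0 c1 c2 c3 c4 c5 c6 c7
  rw [← hμ]
  rw [e0] at b0 I0 A
  rw [e1] at b1 I1 A
  have p1 : 0 < 1 + μ := by linarith
  have p2 : 0 < 1 - μ := by linarith
  have w0 := om_pos (x := μ) (by linarith) (by linarith)
  have hs := sp_mem b0.1 b0.2 b1.1 b1.2
  have ht := sm_mem b0.1 b0.2 b1.1 b1.2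
  obtain ⟨s, es⟩ : ∃ s, s = d / (1 + μ) := ⟨_, rfl⟩
  obtain ⟨t, et⟩ : ∃ t, t = d / (1 - μ) := ⟨_, rfl⟩
  have ds : d = (1 + μ) * s := by rw [es]; field_simp
  have dt : d = (1 - μ) * t := by rw [et]; field_simp
  have pt : ∀ x, ∃ a δ, p x = a + δ ∧ q x = a - δ := fun x =>
    ⟨(p x + q x) / 2, (p x - q x) / 2, by ring, by ring⟩
  rw [← es] at hs
  rw [← et] at ht
  refine inv_step (Ej := Ex fun x => jj (p x) (q x))
    (W := Ex fun x => 1 - ((p x + q x) / 2) ^ 2) (by linarith) b1.1 b0.2 ?_ ?_ ?_ ?_ ?_ ?_ ?_ I0 I1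
  · have a := Ex_lt (f := fun _ => 0) fun x => Hh_pos (hp x).1 (hp x).2
    have b := Ex_lt (f := fun _ => 0) fun x => Hh_pos (hq x).1 (hq x).2
    rw [Ex_const] at a b; linarith
  · obtain ⟨α, hα⟩ : ∃ α, α = s / (1 - s ^ 2) - At s := ⟨_, rfl⟩
    obtain ⟨β, hβ⟩ : ∃ α, α = t / (1 - t ^ 2) - At t := ⟨_, rfl⟩
    have := A (-(Gg s - α * s + Gg t - β * t) / 2) (-(Gg s - α * s - Gg t + β * t + α + β) / 4)
      (-(Gg s - α * s - Gg t + β * t - α - β) / 4) 0 0 1 (-2) 0 (fun x => by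
        obtain ⟨a, δ, u1, u2⟩ := pt x
        have h1 := hp x
        have h2 := hq x
        simp only [u1, u2] at h1 h2 ⊢
        have := P1 h1.1 h1.2 h2.1 h2.2 hs.1 hs.2 ht.1 ht.2
        rw [← hα, ← hβ] at this; linarith)
    unfold KK; rw [← es, ← et]
    have a1 : α * d = α * ((1 + μ) * s) := by rw [← ds]
    have a2 : β * d = β * ((1 - μ) * t) := by rw [← dt]
    linarith
  · obtain ⟨c, hc⟩ : ∃ c, c = d / (1 - μ ^ 2) := ⟨_, rfl⟩
    have := A (-(Ph s - s ^ 2 / 2 - (At s - s) * s + (Ph t - t ^ 2 / 2 - (At t - t) * t)) / 2)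
      (-(Ph s - s ^ 2 / 2 - (At s - s) * s - (Ph t - t ^ 2 / 2 - (At t - t) * t) +
        (At s - s) + (At t - t)) / 4 - c / 2)
      (-(Ph s - s ^ 2 / 2 - (At s - s) * s - (Ph t - t ^ 2 / 2 - (At t - t) * t) -
        (At s - s) - (At t - t)) / 4 + c / 2) 0 0 0 1 (c ^ 2 / 2) (fun x => by
        obtain ⟨a, δ, u1, u2⟩ := pt x
        have h1 := hp x
        have h2 := hq x
        simp only [u1, u2] at h1 h2 ⊢
        have := P2 h1.1 h1.2 h2.1 h2.2 c hs.1 hs.2 ht.1 ht.2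
        linarith)
    unfold JJ; rw [← es, ← et, ← hc]
    have a1 : (At s - s) * d = (At s - s) * ((1 + μ) * s) := by rw [← ds]
    have a2 : (At t - t) * d = (At t - t) * ((1 - μ) * t) := by rw [← dt]
    have a3 : ((1 + μ) * s ^ 2 + (1 - μ) * t ^ 2) / 4 = c ^ 2 / 2 * (1 - μ ^ 2) := by
      rw [es, et, hc, show 1 - μ ^ 2 = (1 + μ) * (1 - μ) by ring]; field_simp; ring
    have a4 : c * d = c ^ 2 * (1 - μ ^ 2) := by rw [hc]; field_simp
    linarith
  · have := A 0 0 0 (1 / 2) (1 / 2) 0 1 (-log 2) (fun x => by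
      have := Hh_ge (x := (p x + q x) / 2) (by linarith [(hp x).1, (hq x).1])
        (by linarith [(hp x).2, (hq x).2])
      unfold jj Hh at *; linarith)
    linarith
  · obtain ⟨c, hc⟩ : ∃ c, c = 1 / (1 - μ ^ 2) := ⟨_, rfl⟩
    have := A (c * (1 + μ ^ 2) - Hh μ - At μ * μ) (At μ / 2 - c * μ) (At μ / 2 - c * μ) (1 / 2)
      (1 / 2) 0 1 (-c) (fun x => by
      have := breg_le (a := (p x + q x) / 2) (m := μ) (by linarith [(hp x).1, (hq x).1])
        (by linarith [(hp x).2, (hq x).2]) (by linarith) (by linarith)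
      rw [div_eq_mul_one_div _ (1 - μ ^ 2), ← hc] at this
      unfold jj Hh at *; linarith)
    rw [div_eq_mul_one_div _ (1 - μ ^ 2), ← hc]; linarith
  · intro y y0 y1
    have := A 0 (-kk y / 2) (kk y / 2) (al y / 2) (al y / 2) 1 0 0 (fun x => by
      have := P4 (hp x).1 (hp x).2 (hq x).1 (hq x).2 y0 y1
      linarith)
    linarith
  · have := A (1 + μ ^ 2) (-μ) (-μ) 0 0 0 0 (-1) (fun x => by
      nlinarith [sq_nonneg ((p x + q x) / 2 - μ)])
    linarith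

end

/-- entropy production -/
noncomputable def DD : (n : ℕ) → (Cu n → ℝ) → ℝ
  | 0, _ => 0
  | n + 1, u => Ex (fun x => kap (sl 1 u x) (sl (-1) u x)) + (DD n (sl 1 u) + DD n (sl (-1) u)) / 2

theorem inv_all : ∀ (n : ℕ) (u : Cu n → ℝ), In1 u → Inv (DD n u) (Ex u) (Ex fun x => Hh (u x))
  | 0, u, h => by
    rw [Ex_zero, Ex_zero]; exact inv_zero (h _).1 (h _).2
  | n + 1, u, h => by
    have hp : In1 (sl 1 u) := fun x => h _
    have hq : In1 (sl (-1) u) := fun x => h _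
    have a := inv_all n _ hp
    have b := inv_all n _ hq
    rw [Ex_succ u, Ex_succ fun x => Hh (u x), DD]
    rcases le_total (Ex (sl (-1) u)) (Ex (sl 1 u)) with c | c
    · exact pair_step hp hq c a b
    · have := pair_step hq hp c b a
      simp only [kap_comm (sl (-1) u _)] at this
      rw [add_comm (DD n _), add_comm (Ex (sl (-1) u)), add_comm (Ex fun x => Hh (sl (-1) u x))]
        at this
      exact this

end Vale.Agent.P322
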