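import Mathlib

namespace Vale.Agent.P322

/-- Mutual information, in bits, of a pair of finite-valued random variables whose joint
probability mass function is `p`. -/
noncomputable def mutualInfo {α β : Type} [Fintype α] [Fintype β] (p : α → β → ℝ) : ℝ :=
  ∑ a, ∑ b, p a b * Real.logb 2 (p a b / ((∑ b', p a b') * ∑ a', p a' b))

/-- Binary entropy in bits. -/
noncomputable def h2 (p : ℝ) : ℝ := -p * Real.logb 2 p - (1 - p) * Real.logb 2 (1 - p)

/-- Probability that the noise vector `Z` (independent signs, each `-1` with probability `ε`)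
equals `z`. -/
noncomputable def noiseProb {n : ℕ} (ε : ℝ) (z : Fin n → ℤˣ) : ℝ :=
  ∏ i, if z i = -1 then ε else 1 - ε

/-- Probability that `f X = s` and `Y = y`, where `X` is uniform on the cube, independent of `Z`,
and `Y i = X i * Z i`. -/
noncomputable def jointProb {n : ℕ} (f : (Fin n → ℤˣ) → ℤˣ) (ε : ℝ) (s : ℤˣ)
    (y : Fin n → ℤˣ) : ℝ :=
  ∑ x : Fin n → ℤˣ, ∑ z : Fin n → ℤˣ,
    if f x = s ∧ (fun i => x i * z i) = y then 1 / 2 ^ n * noiseProb ε z else 0

end Vale.Agent.P322
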