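import Mathlib

/-! One-variable functions used in the entropy-production argument. -/

namespace Vale.Agent.P322
open Real Set

noncomputable def At (x : ℝ) : ℝ := (log (1 + x) - log (1 - x)) / 2
noncomputable def Dm (x : ℝ) : ℝ := -(log (1 + x) + log (1 - x)) / 2
noncomputable def Ph (x : ℝ) : ℝ := ((1 + x) * log (1 + x) + (1 - x) * log (1 - x)) / 2
noncomputable def Hh (x : ℝ) : ℝ := log 2 - Ph x
noncomputable def Gg (x : ℝ) : ℝ := x * At x - 2 * Ph x
noncomputable def Ll (x : ℝ) : ℝ := x / ((1 - x ^ 2) * At x) - 1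
noncomputable def gam (x : ℝ) : ℝ := Gg x + Ll x * Hh x
noncomputable def ell (x : ℝ) : ℝ := log 2 + Dm x
noncomputable def al (x : ℝ) : ℝ := x ^ 2 / ((1 - x ^ 2) * ell x)
noncomputable def kk (x : ℝ) : ℝ := At x + al x * Hh x / x

lemma Ph_eq (x : ℝ) : Ph x = x * At x - Dm x := by unfold Ph At Dm; ring
lemma Hh_eq (x : ℝ) : Hh x = ell x - x * At x := by unfold Hh ell; rw [Ph_eq]; ring
lemma Gg_eq (x : ℝ) : Gg x = 2 * Dm x - x * At x := by unfold Gg; rw [Ph_eq]; ring
lemma At_neg (x : ℝ) : At (-x) = -At x := by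
  unfold At; rw [sub_neg_eq_add, ← sub_eq_add_neg]; ring
lemma Ph_neg (x : ℝ) : Ph (-x) = Ph x := by
  unfold Ph; rw [sub_neg_eq_add, ← sub_eq_add_neg]; ring
lemma Ph_abs (x : ℝ) : Ph |x| = Ph x := by
  rcases abs_choice x with h | h <;> rw [h]; exact Ph_neg x
@[simp] lemma At_zero : At 0 = 0 := by simp [At]
@[simp] lemma Ph_zero : Ph 0 = 0 := by simp [Ph]
@[simp] lemma Dm_zero : Dm 0 = 0 := by simp [Dm]
@[simp] lemma Gg_zero : Gg 0 = 0 := by simp [Gg]
lemma Ph_one : Ph 1 = log 2 := by unfold Ph; norm_num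

lemma Dm_eq {x : ℝ} (h1 : -1 < x) (h2 : x < 1) : Dm x = -log (1 - x ^ 2) / 2 := by
  unfold Dm
  rw [show 1 - x ^ 2 = (1 + x) * (1 - x) by ring, log_mul (by linarith) (by linarith)]

lemma At_eq {x : ℝ} (h1 : -1 < x) (h2 : x < 1) : At x = 1 / 2 * log ((1 + x) / (1 - x)) := by
  unfold At
  rw [log_div (by linarith) (by linarith)]; ring

lemma om_pos {x : ℝ} (h1 : -1 < x) (h2 : x < 1) : 0 < 1 - x ^ 2 := by nlinarith

lemma mono_of_deriv {f f' : ℝ → ℝ} {a b : ℝ} (hab : a ≤ b) (hc : ContinuousOn f (Icc a b))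
    (hd : ∀ s ∈ Ioo a b, HasDerivAt f (f' s) s) (h : ∀ s ∈ Ioo a b, 0 ≤ f' s) : f a ≤ f b := by
  rcases hab.eq_or_lt with rfl | hlt
  · exact le_rfl
  obtain ⟨c, hc', he⟩ := exists_hasDerivAt_eq_slope f f' hlt hc hd
  have := h c hc'
  rw [he] at this
  have h2 := (div_nonneg_iff.1 this)
  rcases h2 with ⟨h3, _⟩ | ⟨_, h4⟩
  · linarith
  · linarith

lemma mono_of_deriv' {f f' : ℝ → ℝ} {a b : ℝ} (hab : a ≤ b)
    (hd : ∀ s ∈ Icc a b, HasDerivAt f (f' s) s) (h : ∀ s ∈ Ioo a b, 0 ≤ f' s) : f a ≤ f b :=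
  mono_of_deriv hab (fun s hs => (hd s hs).continuousAt.continuousWithinAt)
    (fun s hs => hd s (Ioo_subset_Icc_self hs)) h

/-- minimum at `z` from the sign of the derivative -/
lemma le_of_deriv_sign {f f' : ℝ → ℝ} {z x : ℝ}
    (hd : ∀ s ∈ Icc (min z x) (max z x), HasDerivAt f (f' s) s)
    (h1 : ∀ s, x < s → s < z → f' s ≤ 0) (h2 : ∀ s, z < s → s < x → 0 ≤ f' s) : f z ≤ f x := by
  rcases le_total z x with h | h
  · rw [min_eq_left h, max_eq_right h] at hd
    exact mono_of_deriv' h hd (fun s hs => h2 s hs.1 hs.2)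
  · rw [min_eq_right h, max_eq_left h] at hd
    have := mono_of_deriv' (f := fun s => -f s) (f' := fun s => -f' s) h
      (fun s hs => (hd s hs).neg) (fun s hs => by have := h1 s hs.1 hs.2; linarith)
    simpa using this

lemma mem_of_mm {a b z x s : ℝ} (hz : a < z ∧ z < b) (hx : a < x ∧ x < b)
    (hs : s ∈ Icc (min z x) (max z x)) : a < s ∧ s < b :=
  ⟨lt_of_lt_of_le (lt_min hz.1 hx.1) hs.1, lt_of_le_of_lt hs.2 (max_lt hz.2 hx.2)⟩

lemma hd_lp {x : ℝ} (h1 : -1 < x) : HasDerivAt (fun s => log (1 + s)) (1 / (1 + x)) x := by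
  have := ((hasDerivAt_id x).const_add 1).log (by simp; linarith)
  simpa using this

lemma hd_lm {x : ℝ} (h2 : x < 1) : HasDerivAt (fun s => log (1 - s)) (-1 / (1 - x)) x := by
  have := ((hasDerivAt_id x).const_sub 1).log (by simp; linarith)
  simpa using this

lemma hd_At {x : ℝ} (h1 : -1 < x) (h2 : x < 1) : HasDerivAt At (1 / (1 - x ^ 2)) x := by
  have := ((hd_lp h1).sub (hd_lm h2)).div_const 2
  refine HasDerivAt.congr_deriv (f' := (1 / (1 + x) - -1 / (1 - x)) / 2) this ?_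
  have : 1 + x ≠ 0 := by linarith
  have : 1 - x ≠ 0 := by linarith
  rw [show 1 - x ^ 2 = (1 + x) * (1 - x) by ring]
  field_simp; ring

lemma hd_Dm {x : ℝ} (h1 : -1 < x) (h2 : x < 1) : HasDerivAt Dm (x / (1 - x ^ 2)) x := by
  have := ((hd_lp h1).add (hd_lm h2)).neg.div_const 2
  refine HasDerivAt.congr_deriv (f' := -(1 / (1 + x) + -1 / (1 - x)) / 2) this ?_
  have : 1 + x ≠ 0 := by linarith
  have : 1 - x ≠ 0 := by linarith
  rw [show 1 - x ^ 2 = (1 + x) * (1 - x) by ring]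
  field_simp; ring

lemma hd_Ph {x : ℝ} (h1 : -1 < x) (h2 : x < 1) : HasDerivAt Ph (At x) x := by
  have h := ((hasDerivAt_id x).mul (hd_At h1 h2)).sub (hd_Dm h1 h2)
  have e : Ph = fun s => id s * At s - Dm s := by funext s; simp [Ph_eq]
  rw [e]
  refine HasDerivAt.congr_deriv h ?_
  simp only [id]; ring

lemma hd_Hh {x : ℝ} (h1 : -1 < x) (h2 : x < 1) : HasDerivAt Hh (-At x) x :=
  (hd_Ph h1 h2).const_sub _

lemma hd_ell {x : ℝ} (h1 : -1 < x) (h2 : x < 1) : HasDerivAt ell (x / (1 - x ^ 2)) x :=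
  (hd_Dm h1 h2).const_add _

lemma hd_Gg {x : ℝ} (h1 : -1 < x) (h2 : x < 1) :
    HasDerivAt Gg (x / (1 - x ^ 2) - At x) x := by
  have h := ((hasDerivAt_id x).mul (hd_At h1 h2)).sub ((hd_Ph h1 h2).const_mul 2)
  have e : Gg = fun s => id s * At s - 2 * Ph s := by funext s; simp [Gg]
  rw [e]
  refine HasDerivAt.congr_deriv h ?_
  simp only [id]; ring

lemma continuous_Ph : Continuous Ph := by
  have h1 : Continuous fun x : ℝ => (1 + x) * log (1 + x) :=
    continuous_mul_log.comp (continuous_const.add continuous_id)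
  have h2 : Continuous fun x : ℝ => (1 - x) * log (1 - x) :=
    continuous_mul_log.comp (continuous_const.sub continuous_id)
  exact (h1.add h2).div_const 2

/-! polynomial bounds -/

lemma At_ge1 {x : ℝ} (h0 : 0 ≤ x) (h : x < 1) : x ≤ At x := by
  have := sum_range_le_log_div h0 h 1
  rw [At_eq (by linarith) h]; simpa using this

lemma At_ge2 {x : ℝ} (h0 : 0 ≤ x) (h : x < 1) : x + x ^ 3 / 3 ≤ At x := by
  have := sum_range_le_log_div h0 h 2
  rw [At_eq (by linarith) h]
  simp only [Finset.sum_range_succ, Finset.sum_range_zero] at this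
  norm_num at this ⊢; linarith

lemma At_le0 {x : ℝ} (h0 : 0 ≤ x) (h : x < 1) : At x ≤ x / (1 - x ^ 2) := by
  have := log_div_le_sum_range_add h0 h 0
  rw [At_eq (by linarith) h]; simpa using this

lemma At_le3 {x : ℝ} (h0 : 0 ≤ x) (h : x < 1) :
    At x ≤ x + x ^ 3 / 3 + x ^ 5 / 5 + x ^ 7 / (1 - x ^ 2) := by
  have := log_div_le_sum_range_add h0 h 3
  rw [At_eq (by linarith) h]
  simp only [Finset.sum_range_succ, Finset.sum_range_zero] at this
  norm_num at this ⊢; linarith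

lemma At_nonneg {x : ℝ} (h0 : 0 ≤ x) (h : x < 1) : 0 ≤ At x := h0.trans (At_ge1 h0 h)
lemma At_pos {x : ℝ} (h0 : 0 < x) (h : x < 1) : 0 < At x := h0.trans_le (At_ge1 h0.le h)

lemma At_mono {a b : ℝ} (ha : -1 < a) (hab : a ≤ b) (hb : b < 1) : At a ≤ At b :=
  mono_of_deriv' hab (fun s hs => hd_At (by linarith [hs.1]) (by linarith [hs.2]))
    (fun s hs => (one_div_pos.2 (om_pos (by linarith [hs.1]) (by linarith [hs.2]))).le)

/-- `At x ≤ x + x^3/(3(1-x^2))` -/
lemma At_le1 {x : ℝ} (h0 : 0 ≤ x) (h : x < 1) : At x ≤ x + x ^ 3 / (3 * (1 - x ^ 2)) := by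
  have key := mono_of_deriv' (f := fun s => s + s ^ 3 / (3 * (1 - s ^ 2)) - At s)
    (f' := fun s => 2 * s ^ 4 / (3 * (1 - s ^ 2) ^ 2)) h0 (fun s hs => by
      have h1 : -1 < s := by linarith [hs.1]
      have h2 : s < 1 := by linarith [hs.2]
      have ho := om_pos h1 h2
      have := (((hasDerivAt_id s).add (((hasDerivAt_id s).pow 3).div
        ((((hasDerivAt_id s).pow 2).const_sub 1).const_mul 3) (by simp; linarith))).sub
        (hd_At h1 h2))
      refine HasDerivAt.congr_deriv this ?_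
      simp only [id, Pi.pow_apply]; field_simp; ring) (fun s hs => by positivity)
  simp at key; linarith

lemma Dm_ge3 {x : ℝ} (h0 : 0 ≤ x) (h : x < 1) :
    x ^ 2 + x ^ 4 / 2 + x ^ 6 / 3 ≤ 2 * Dm x := by
  have hq : |x ^ 2| < 1 := by rw [abs_of_nonneg (sq_nonneg x)]; nlinarith
  have := sum_le_hasSum (Finset.range 3) (fun i _ => by positivity)
    (hasSum_pow_div_log_of_abs_lt_one hq)
  simp only [Finset.sum_range_succ, Finset.sum_range_zero] at this
  rw [Dm_eq (by linarith) h]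
  norm_num at this; nlinarith

lemma Dm_le2 {x : ℝ} (h0 : 0 ≤ x) (h : x < 1) :
    2 * Dm x ≤ x ^ 2 + x ^ 4 / 2 + x ^ 6 / (1 - x ^ 2) := by
  have hq : |x ^ 2| < 1 := by rw [abs_of_nonneg (sq_nonneg x)]; nlinarith
  have := (abs_le.1 (abs_log_sub_add_sum_range_le hq 2)).1
  simp only [Finset.sum_range_succ, Finset.sum_range_zero, abs_of_nonneg (sq_nonneg x)] at this
  rw [Dm_eq (by linarith) h]
  norm_num at this
  have e1 : (x ^ 2) ^ 2 = x ^ 4 := by ring
  have e2 : (x ^ 2) ^ 3 = x ^ 6 := by ring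
  rw [e1, e2] at this; linarith

lemma Dm_nonneg {x : ℝ} (h0 : 0 ≤ x) (h : x < 1) : 0 ≤ Dm x := by
  have := Dm_ge3 h0 h
  have : 0 ≤ x ^ 2 + x ^ 4 / 2 + x ^ 6 / 3 := by positivity
  linarith

/-- `Ph s - s^2/2` is monotone on `[0,1]` -/
lemma Ph_sub_sq_mono {a b : ℝ} (ha : 0 ≤ a) (hab : a ≤ b) (hb : b ≤ 1) :
    Ph a - a ^ 2 / 2 ≤ Ph b - b ^ 2 / 2 :=
  mono_of_deriv (f := fun s => Ph s - s ^ 2 / 2) (f' := fun s => At s - s) hab
    (continuous_Ph.sub (by fun_prop)).continuousOn (fun s hs => by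
      have := (hd_Ph (by linarith [hs.1]) (by linarith [hs.2])).sub
        (((hasDerivAt_id s).pow 2).div_const 2)
      refine HasDerivAt.congr_deriv this ?_
      simp) (fun s hs => by
      have := At_ge1 (x := s) (by linarith [hs.1]) (by linarith [hs.2]); linarith)

lemma Ph_ge0 {x : ℝ} (h0 : 0 ≤ x) (h : x ≤ 1) : x ^ 2 / 2 ≤ Ph x := by
  have := Ph_sub_sq_mono le_rfl h0 h; simp at this; linarith

lemma Ph_ge {x : ℝ} (h0 : -1 ≤ x) (h : x ≤ 1) : x ^ 2 / 2 ≤ Ph x := by
  have := Ph_ge0 (abs_nonneg x) (abs_le.2 ⟨h0, h⟩)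
  rwa [Ph_abs, sq_abs] at this

lemma Ph_nonneg {x : ℝ} (h0 : -1 ≤ x) (h : x ≤ 1) : 0 ≤ Ph x :=
  le_trans (by positivity) (Ph_ge h0 h)

lemma Ph_mono {a b : ℝ} (ha : 0 ≤ a) (hab : a ≤ b) (hb : b ≤ 1) : Ph a ≤ Ph b := by
  have := Ph_sub_sq_mono ha hab hb; nlinarith

lemma Gg_mono {a b : ℝ} (ha : 0 ≤ a) (hab : a ≤ b) (hb : b < 1) : Gg a ≤ Gg b :=
  mono_of_deriv' hab (fun s hs => hd_Gg (by linarith [hs.1]) (by linarith [hs.2]))
    (fun s hs => by
      have := At_le0 (x := s) (by linarith [hs.1]) (by linarith [hs.2]); linarith)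

lemma Gg_nonneg {x : ℝ} (h0 : 0 ≤ x) (h : x < 1) : 0 ≤ Gg x := by
  have := Gg_mono le_rfl h0 h; simpa using this

/-- `Ph s / s^2` is monotone on `(0,1]` -/
lemma Ph_div_mono {a b : ℝ} (ha : 0 < a) (hab : a ≤ b) (hb : b ≤ 1) :
    Ph a / a ^ 2 ≤ Ph b / b ^ 2 :=
  mono_of_deriv (f := fun s => Ph s / s ^ 2) (f' := fun s => Gg s / s ^ 3) hab
    (continuous_Ph.continuousOn.div (by fun_prop) (fun s hs => by
      have : 0 < s := by linarith [hs.1]
      positivity)) (fun s hs => by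
      have h0 : 0 < s := by linarith [hs.1]
      have := (hd_Ph (by linarith [hs.1]) (by linarith [hs.2])).div
        ((hasDerivAt_id s).pow 2) (by simp; linarith)
      refine HasDerivAt.congr_deriv this ?_
      simp only [id, Pi.pow_apply, Gg]; field_simp; ring) (fun s hs => by
      have h0 : 0 < s := by linarith [hs.1]
      have := Gg_nonneg h0.le (by linarith [hs.2]); positivity)

lemma Ph_le_of {a s : ℝ} (ha : 0 ≤ a) (has : a ≤ s) (hs0 : 0 < s) (hs : s ≤ 1) :
    Ph a ≤ a ^ 2 * (Ph s / s ^ 2) := by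
  rcases ha.eq_or_lt with rfl | ha
  · simp
  have := Ph_div_mono ha has hs
  rw [div_le_iff₀ (by positivity)] at this; linarith

lemma Ph_le {x : ℝ} (h0 : -1 ≤ x) (h : x ≤ 1) : Ph x ≤ log 2 * x ^ 2 := by
  have := Ph_le_of (abs_nonneg x) (abs_le.2 ⟨h0, h⟩) one_pos le_rfl
  rw [Ph_abs, sq_abs, Ph_one] at this; linarith

lemma Hh_ge {x : ℝ} (h0 : -1 ≤ x) (h : x ≤ 1) : log 2 * (1 - x ^ 2) ≤ Hh x := by
  have := Ph_le h0 h; unfold Hh; linarith

lemma l2pos : 0 < log 2 := log_pos (by norm_num)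
lemma l2lo : 0.6931471803 < log 2 := log_two_gt_d9
lemma l2hi : log 2 < 0.6931471808 := log_two_lt_d9

lemma Hh_pos {x : ℝ} (h0 : -1 < x) (h : x < 1) : 0 < Hh x :=
  lt_of_lt_of_le (mul_pos l2pos (om_pos h0 h)) (Hh_ge h0.le h.le)

lemma Hh_anti {a b : ℝ} (ha : 0 ≤ a) (hab : a ≤ b) (hb : b ≤ 1) : Hh b ≤ Hh a := by
  have := Ph_mono ha hab hb; unfold Hh; linarith

lemma ell_ge {x : ℝ} (h0 : 0 ≤ x) (h : x < 1) : log 2 ≤ ell x := by
  have := Dm_nonneg h0 h; unfold ell; linarith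

lemma ell_pos {x : ℝ} (h0 : 0 ≤ x) (h : x < 1) : 0 < ell x := l2pos.trans_le (ell_ge h0 h)

lemma Ll_mul {x : ℝ} (h0 : 0 < x) (h : x < 1) : Ll x * At x = x / (1 - x ^ 2) - At x := by
  have := At_pos h0 h
  have := om_pos (by linarith) h
  unfold Ll; field_simp

lemma Ll_nonneg {x : ℝ} (h0 : 0 < x) (h : x < 1) : 0 ≤ Ll x := by
  have h1 := At_pos h0 h
  have h2 := Ll_mul h0 h
  have h3 := At_le0 h0.le h
  by_contra hn
  have := mul_neg_of_neg_of_pos (not_le.1 hn) h1
  linarith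

lemma hd_Ll {x : ℝ} (h0 : 0 < x) (h : x < 1) :
    HasDerivAt Ll (((1 + x ^ 2) * At x - x) / ((1 - x ^ 2) * At x) ^ 2) x := by
  have h1 := At_pos h0 h
  have h2 := om_pos (by linarith) h
  have := (((hasDerivAt_id x).div (((((hasDerivAt_id x).pow 2).const_sub 1).mul
    (hd_At (by linarith) h))) (by simp; constructor <;> linarith))).sub_const 1
  refine HasDerivAt.congr_deriv this ?_
  simp only [id, Pi.pow_apply, Pi.mul_apply]; field_simp; ring

lemma Ll_mono {a b : ℝ} (ha : 0 < a) (hab : a ≤ b) (hb : b < 1) : Ll a ≤ Ll b :=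
  mono_of_deriv' hab (fun s hs => hd_Ll (by linarith [hs.1]) (by linarith [hs.2]))
    (fun s hs => by
      have h0 : 0 < s := by linarith [hs.1]
      have := At_ge1 h0.le (by linarith [hs.2])
      apply div_nonneg _ (sq_nonneg _); nlinarith [sq_nonneg s])

/-- tangent inequality: `Gg` is a convex function of `Ph` with slope `Ll` -/
lemma tangent {x z : ℝ} (hx0 : 0 ≤ x) (hx : x < 1) (hz0 : 0 < z) (hz : z < 1) :
    Gg z + Ll z * (Ph x - Ph z) ≤ Gg x := by
  have := le_of_deriv_sign (f := fun s => Gg s - Ll z * Ph s)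
    (f' := fun s => s / (1 - s ^ 2) - At s - Ll z * At s) (z := z) (x := x)
    (fun s hs => by
      have := mem_of_mm (a := -1) (b := 1) ⟨by linarith, hz⟩ ⟨by linarith, hx⟩ hs
      exact (hd_Gg this.1 this.2).sub ((hd_Ph this.1 this.2).const_mul _))
    (fun s h1 h2 => by
      have h0 : 0 < s := by linarith
      rw [← Ll_mul h0 (by linarith)]
      have := Ll_mono h0 h2.le hz
      have := At_pos h0 (by linarith)
      nlinarith)
    (fun s h1 h2 => by
      have h0 : 0 < s := by linarith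
      rw [← Ll_mul h0 (by linarith)]
      have := Ll_mono hz0 h1.le (by linarith)
      have := At_pos h0 (by linarith)
      nlinarith)
  linarith

lemma chord {a b x β c : ℝ} (ha : 0 < a) (hax : a ≤ x) (hxb : x ≤ b) (hb : b < 1)
    (h1 : Gg a - β * Ph a ≤ c) (h2 : Gg b - β * Ph b ≤ c) : Gg x - β * Ph x ≤ c := by
  have hx0 : 0 < x := by linarith
  have hx1 : x < 1 := by linarith
  rcases le_total (Ll x) β with h | h
  · have := tangent ha.le (by linarith) hx0 hx1
    have := Ph_mono ha.le hax hx1.le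
    nlinarith
  · have := tangent (by linarith) hb hx0 hx1
    have := Ph_mono hx0.le hxb hb.le
    nlinarith

lemma gam_nonneg {x : ℝ} (h0 : 0 < x) (h : x < 1) : 0 ≤ gam x := by
  have := Gg_nonneg h0.le h
  have := Ll_nonneg h0 h
  have := Hh_pos (by linarith) h
  unfold gam; positivity

lemma gam_mono {a b : ℝ} (ha : 0 < a) (hab : a ≤ b) (hb : b < 1) : gam a ≤ gam b := by
  have h1 := tangent (by linarith) hb ha (by linarith)
  have h2 := Ll_mono ha hab hb
  have h3 := Hh_pos (by linarith) hb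
  unfold gam Hh at *; nlinarith

lemma al_pos {x : ℝ} (h0 : 0 < x) (h : x < 1) : 0 < al x := by
  have := ell_pos h0.le h
  have := om_pos (by linarith) h
  unfold al; positivity

lemma al_mono {a b : ℝ} (ha : 0 < a) (hab : a ≤ b) (hb : b < 1) : al a ≤ al b :=
  mono_of_deriv' (f' := fun s => s * (2 * ell s - s ^ 2) / ((1 - s ^ 2) * ell s) ^ 2) hab
    (fun s hs => by
      have h0 : 0 < s := by linarith [hs.1]
      have h1 : s < 1 := by linarith [hs.2]
      have h2 := ell_pos h0.le h1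
      have h3 := om_pos (by linarith) h1
      have := ((hasDerivAt_id s).pow 2).div (((((hasDerivAt_id s).pow 2).const_sub 1).mul
        (hd_ell (by linarith) h1))) (by simp; constructor <;> linarith)
      refine HasDerivAt.congr_deriv this ?_
      simp only [id, Pi.pow_apply, Pi.mul_apply]; field_simp; ring)
    (fun s hs => by
      have h0 : 0 < s := by linarith [hs.1]
      have h1 : s < 1 := by linarith [hs.2]
      have h2 := ell_ge h0.le h1
      have := l2lo
      apply div_nonneg _ (sq_nonneg _)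
      apply mul_nonneg h0.le; nlinarith)

lemma kk_min {y z : ℝ} (hy0 : 0 < y) (hy : y < 1) (hz0 : 0 < z) (hz : z < 1) :
    kk y ≤ At z + al y * Hh z / z := by
  have key : ∀ s, 0 < s → s < 1 →
      1 / (1 - s ^ 2) - al y * ell s / s ^ 2 = ell s / s ^ 2 * (al s - al y) := by
    intro s h0 h1
    have h2 := ell_pos h0.le h1
    have h3 := om_pos (by linarith) h1
    have : al s = s ^ 2 / ((1 - s ^ 2) * ell s) := rfl
    rw [this]; field_simp
  exact le_of_deriv_sign (f := fun s => At s + al y * Hh s / s)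
    (f' := fun s => 1 / (1 - s ^ 2) - al y * ell s / s ^ 2) (z := y) (x := z)
    (fun s hs => by
      have h := mem_of_mm (a := 0) (b := 1) ⟨hy0, hy⟩ ⟨hz0, hz⟩ hs
      have := (hd_At (by linarith) h.2).add
        (((hd_Hh (by linarith) h.2).const_mul (al y)).div (hasDerivAt_id s) (by simp; linarith))
      refine HasDerivAt.congr_deriv this ?_
      have := h.1.ne'
      simp only [id, Hh_eq]; field_simp; ring)
    (fun s h1 h2 => by
      have h0 : 0 < s := by linarith
      rw [key s h0 (by linarith)]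
      have := al_mono h0 h2.le hy
      have := ell_pos h0.le (by linarith)
      exact mul_nonpos_of_nonneg_of_nonpos (by positivity) (by linarith))
    (fun s h1 h2 => by
      have h0 : 0 < s := by linarith
      rw [key s h0 (by linarith)]
      have := al_mono hy0 h1.le (by linarith)
      have := ell_pos h0.le (by linarith)
      exact mul_nonneg (by positivity) (by linarith))

lemma kk_pos {y : ℝ} (hy0 : 0 < y) (hy : y < 1) : 0 < kk y := by
  have := At_pos hy0 hy
  have := al_pos hy0 hy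
  have := Hh_pos (by linarith) hy
  unfold kk; positivity

/-- tangent line of `Gg` on `(-1,1)` -/
lemma Gg_tan {x z : ℝ} (hx0 : -1 < x) (hx : x < 1) (hz0 : -1 < z) (hz : z < 1) :
    Gg z + (z / (1 - z ^ 2) - At z) * (x - z) ≤ Gg x := by
  have mono : ∀ a b, -1 < a → a ≤ b → b < 1 →
      a / (1 - a ^ 2) - At a ≤ b / (1 - b ^ 2) - At b := fun a b ha hab hb =>
    mono_of_deriv' (f := fun s => s / (1 - s ^ 2) - At s)
      (f' := fun s => 2 * s ^ 2 / (1 - s ^ 2) ^ 2) hab (fun s hs => by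
        have h0 : -1 < s := by linarith [hs.1]
        have h1 : s < 1 := by linarith [hs.2]
        have h3 := om_pos h0 h1
        have := ((hasDerivAt_id s).div (((hasDerivAt_id s).pow 2).const_sub 1)
          (by simp; linarith)).sub (hd_At h0 h1)
        refine HasDerivAt.congr_deriv this ?_
        simp only [id, Pi.pow_apply]; field_simp; ring) (fun s hs => by positivity)
  have := le_of_deriv_sign (f := fun s => Gg s - (z / (1 - z ^ 2) - At z) * s)
    (f' := fun s => s / (1 - s ^ 2) - At s - (z / (1 - z ^ 2) - At z)) (z := z) (x := x)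
    (fun s hs => by
      have h := mem_of_mm (a := -1) (b := 1) ⟨hz0, hz⟩ ⟨hx0, hx⟩ hs
      have := (hd_Gg h.1 h.2).sub ((hasDerivAt_id s).const_mul (z / (1 - z ^ 2) - At z))
      refine HasDerivAt.congr_deriv this ?_
      simp)
    (fun s h1 h2 => by have := mono s z (by linarith) h2.le hz; linarith)
    (fun s h1 h2 => by have := mono z s hz0 h1.le (by linarith); linarith)
  linarith

/-- tangent line of `Ph s - s^2/2` on `(-1,1)` -/
lemma Ph_tan2 {x z : ℝ} (hx0 : -1 < x) (hx : x < 1) (hz0 : -1 < z) (hz : z < 1) :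
    Ph z - z ^ 2 / 2 + (At z - z) * (x - z) ≤ Ph x - x ^ 2 / 2 := by
  have mono : ∀ a b, -1 < a → a ≤ b → b < 1 → At a - a ≤ At b - b := fun a b ha hab hb =>
    mono_of_deriv' (f := fun s => At s - s)
      (f' := fun s => 1 / (1 - s ^ 2) - 1) hab (fun s hs =>
        (hd_At (by linarith [hs.1]) (by linarith [hs.2])).sub (hasDerivAt_id s)) (fun s hs => by
        have h3 := om_pos (x := s) (by linarith [hs.1]) (by linarith [hs.2])
        rw [sub_nonneg, le_div_iff₀ h3]; nlinarith [sq_nonneg s])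
  have := le_of_deriv_sign (f := fun s => Ph s - s ^ 2 / 2 - (At z - z) * s)
    (f' := fun s => At s - s - (At z - z)) (z := z) (x := x)
    (fun s hs => by
      have h := mem_of_mm (a := -1) (b := 1) ⟨hz0, hz⟩ ⟨hx0, hx⟩ hs
      have := ((hd_Ph h.1 h.2).sub (((hasDerivAt_id s).pow 2).div_const 2)).sub
        ((hasDerivAt_id s).const_mul (At z - z))
      refine HasDerivAt.congr_deriv this ?_
      simp)
    (fun s h1 h2 => by have := mono s z (by linarith) h2.le hz; linarith)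
    (fun s h1 h2 => by have := mono z s hz0 h1.le (by linarith); linarith)
  linarith

lemma Ph_tan {x z : ℝ} (hx0 : -1 < x) (hx : x < 1) (hz0 : -1 < z) (hz : z < 1) :
    Ph z + At z * (x - z) ≤ Ph x := by
  have := Ph_tan2 hx0 hx hz0 hz
  nlinarith [sq_nonneg (x - z)]

/-- KL divergence is at most chi-square -/
lemma breg_le {a m : ℝ} (ha0 : -1 < a) (ha : a < 1) (hm0 : -1 < m) (hm : m < 1) :
    Ph a - Ph m - At m * (a - m) ≤ (a - m) ^ 2 / (1 - m ^ 2) := by
  have p1 : 0 < 1 + a := by linarith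
  have p2 : 0 < 1 - a := by linarith
  have p3 : 0 < 1 + m := by linarith
  have p4 : 0 < 1 - m := by linarith
  have h1 := log_le_sub_one_of_pos (div_pos p1 p3)
  have h2 := log_le_sub_one_of_pos (div_pos p2 p4)
  rw [log_div p1.ne' p3.ne'] at h1
  rw [log_div p2.ne' p4.ne'] at h2
  have e : (a - m) ^ 2 / (1 - m ^ 2) =
      ((1 + a) * ((1 + a) / (1 + m) - 1) + (1 - a) * ((1 - a) / (1 - m) - 1)) / 2 := by
    rw [show 1 - m ^ 2 = (1 + m) * (1 - m) by ring]; field_simp; ring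
  rw [e]; unfold Ph At
  nlinarith [mul_le_mul_of_nonneg_left h1 p1.le, mul_le_mul_of_nonneg_left h2 p2.le]

lemma log_le_half {t : ℝ} (ht : 1 ≤ t) : log t ≤ (t - 1 / t) / 2 := by
  have := mono_of_deriv' (f := fun s => (s - 1 / s) / 2 - log s)
    (f' := fun s => (s - 1) ^ 2 / (2 * s ^ 2)) ht (fun s hs => by
      have h0 : s ≠ 0 := by linarith [hs.1]
      have := (((hasDerivAt_id s).sub ((hasDerivAt_const s (1:ℝ)).div (hasDerivAt_id s)
        (by simpa using h0))).div_const 2).sub (hasDerivAt_log h0)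
      refine HasDerivAt.congr_deriv this ?_
      simp only [id]; field_simp; ring) (fun s hs => by positivity)
  simp at this ⊢; linarith

lemma exists_Ph {c b : ℝ} (hb0 : 0 ≤ b) (hc0 : 0 < c) (hcb : c < Ph b) :
    ∃ x, 0 < x ∧ x < b ∧ Ph x = c := by
  have := intermediate_value_Ioo hb0 continuous_Ph.continuousOn
  obtain ⟨x, hx, he⟩ := this (a := c) ⟨by simpa using hc0, hcb⟩
  exact ⟨x, hx.1, hx.2, he⟩

end Vale.Agent.P322
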