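import Vale.Agent.P322.Ode
import Vale.Agent.P322.Defs

namespace Vale.Agent.P322
open Real Set

lemma noise_eq {n : ℕ} (ε : ℝ) (z : Cu n) : noiseProb ε z = wt (1 - 2 * ε) z := by
  unfold noiseProb wt
  refine Finset.prod_congr rfl fun i _ => ?_
  rcases Int.units_eq_one_or (z i) with h | h <;> rw [h]
  · rw [if_neg (by decide)]; simp; ring
  · rw [if_pos rfl]; simp

lemma sum_wt {n : ℕ} (r : ℝ) : ∑ z : Cu n, wt r z = 1 := by
  unfold wt
  rw [← Fintype.piFinset_univ, ← Finset.prod_univ_sum (fun _ => Finset.univ)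
    (fun _ (b : ℤˣ) => (1 + r * ((b : ℤ) : ℝ)) / 2)]
  refine Finset.prod_eq_one fun i _ => ?_
  rw [UnitsInt.univ, Finset.sum_pair (by decide)]; simp; ring

lemma joint_eq {n : ℕ} (f : Cu n → ℤˣ) (ε : ℝ) (s : ℤˣ) (y : Cu n) : jointProb f ε s y =
    (1 + ((s : ℤ) : ℝ) * TT (1 - 2 * ε) (fun x => ((f x : ℤ) : ℝ)) y) / 2 / 2 ^ n := by
  unfold jointProb TT
  rw [Finset.sum_comm]
  conv_rhs => rw [← sum_wt (n := n) (1 - 2 * ε)]
  rw [Finset.mul_sum, ← Finset.sum_add_distrib, Finset.sum_div, Finset.sum_div]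
  refine Finset.sum_congr rfl fun z _ => ?_
  rw [Finset.sum_eq_single (y * z)]
  · have e : (fun i => (y * z) i * z i) = y := by
      funext i; simp [mul_assoc]
    rw [noise_eq, sum_wt, e]
    rcases Int.units_eq_one_or s with h | h <;> rcases Int.units_eq_one_or (f (y * z)) with k | k <;>
      simp [h, k] <;> ring
  · intro x _ hx
    rw [if_neg]
    rintro ⟨_, h⟩
    apply hx
    rw [← h]; funext i; simp [mul_assoc]
  · simp

lemma joint_nonneg {n : ℕ} (f : Cu n → ℤˣ) {ε : ℝ} (h0 : 0 ≤ ε) (h1 : ε ≤ 1) (s : ℤˣ) (y : Cu n) :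
    0 ≤ jointProb f ε s y := by
  refine Finset.sum_nonneg fun x _ => Finset.sum_nonneg fun z _ => ?_
  split_ifs
  · refine mul_nonneg (by positivity) (Finset.prod_nonneg fun i _ => ?_)
    split_ifs <;> linarith
  · exact le_rfl

lemma one_sub_h2 (ε : ℝ) : 1 - h2 ε = Ph (1 - 2 * ε) / log 2 := by
  have := l2pos
  have e : ∀ t : ℝ, 2 * t * log (2 * t) = 2 * t * (log 2 + log t) := fun t => by
    rcases eq_or_ne t 0 with rfl | h
    · simp
    · rw [log_mul two_ne_zero h]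
  unfold h2 Ph logb
  rw [show 1 + (1 - 2 * ε) = 2 * (1 - ε) by ring, show 1 - (1 - 2 * ε) = 2 * ε by ring, e, e]
  field_simp; ring

theorem ck_main {n : ℕ} (f : Cu n → ℤˣ) {ε : ℝ} (h0 : 0 ≤ ε) (h1 : ε ≤ 1 / 2) :
    mutualInfo (jointProb f ε) ≤ 1 - h2 ε := by
  obtain ⟨F, hF⟩ : ∃ F : Cu n → ℝ, F = fun x => ((f x : ℤ) : ℝ) := ⟨_, rfl⟩
  have k := ck (f := F) (fun x => by
    rw [hF]; rcases Int.units_eq_one_or (f x) with h | h <;> simp [h]) (ρ := 1 - 2 * ε)
    (by linarith) (by linarith)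
  have m1 : ∀ s, ∑ y, jointProb f ε s y = (1 + ((s : ℤ) : ℝ) * Ex F) / 2 := fun s => by
    have := Ex_add (fun _ => 1) (fun y => ((s : ℤ) : ℝ) * TT (1 - 2 * ε) F y)
    rw [Ex_const, Ex_mul, Ex_TT] at this
    rw [← this]
    simp only [joint_eq, ← hF, Ex, ← Finset.sum_div]; ring
  have m2 : ∀ y, ∑ s, jointProb f ε s y = 1 / 2 ^ n := fun y => by
    rw [UnitsInt.univ, Finset.sum_pair (by decide), joint_eq, joint_eq]; simp; ring
  have m3 : ∀ s y, jointProb f ε s y * logb 2 (jointProb f ε s y /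
      ((∑ y', jointProb f ε s y') * ∑ s', jointProb f ε s' y)) =
      (1 + ((s : ℤ) : ℝ) * TT (1 - 2 * ε) F y) * (log (1 + ((s : ℤ) : ℝ) * TT (1 - 2 * ε) F y) -
        log (1 + ((s : ℤ) : ℝ) * Ex F)) / 2 / log 2 / 2 ^ n := fun s y => by
    have a := Finset.single_le_sum (f := fun y => jointProb f ε s y)
      (fun y _ => joint_nonneg f h0 (by linarith) s y) (Finset.mem_univ y)
    have b := joint_nonneg f h0 (by linarith) s y
    rw [m1] at a
    rw [m1, m2]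
    rw [joint_eq, ← hF] at a b ⊢
    generalize 1 + ((s : ℤ) : ℝ) * TT (1 - 2 * ε) F y = A at *
    generalize 1 + ((s : ℤ) : ℝ) * Ex F = B at *
    rcases eq_or_ne A 0 with rfl | hA
    · simp
    have p : 0 < A / 2 / 2 ^ n := lt_of_le_of_ne b (Ne.symm (by positivity))
    have hB : B ≠ 0 := by linarith
    rw [show A / 2 / 2 ^ n / (B / 2 * (1 / 2 ^ n)) = A / B by field_simp, logb, log_div hA hB]
    ring
  have fin : mutualInfo (jointProb f ε) =
      (Ex (fun y => Ph (TT (1 - 2 * ε) F y)) - Ph (Ex F)) / log 2 := by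
    unfold mutualInfo
    simp only [m3]
    rw [Finset.sum_comm]
    have e : ∀ y, ∑ s : ℤˣ, (1 + ((s : ℤ) : ℝ) * TT (1 - 2 * ε) F y) *
        (log (1 + ((s : ℤ) : ℝ) * TT (1 - 2 * ε) F y) - log (1 + ((s : ℤ) : ℝ) * Ex F)) / 2 /
        log 2 / 2 ^ n = ((log 2)⁻¹ * Ph (TT (1 - 2 * ε) F y) + (-At (Ex F) / log 2 *
          TT (1 - 2 * ε) F y + Dm (Ex F) / log 2)) / 2 ^ n := fun y => by
      rw [UnitsInt.univ, Finset.sum_pair (by decide)]
      simp only [Units.val_one, Int.cast_one, one_mul, Units.val_neg, Int.cast_neg, neg_mul,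
        ← sub_eq_add_neg]
      unfold Ph At Dm; ring
    simp only [e, ← Finset.sum_div]
    have := Ex_add (fun y => (log 2)⁻¹ * Ph (TT (1 - 2 * ε) F y))
      (fun y => -At (Ex F) / log 2 * TT (1 - 2 * ε) F y + Dm (Ex F) / log 2)
    rw [Ex_add (fun y => -At (Ex F) / log 2 * TT (1 - 2 * ε) F y), Ex_mul, Ex_mul, Ex_const,
      Ex_TT] at this
    refine this.trans ?_
    rw [Ph_eq (Ex F)]; ring
  rw [fin, one_sub_h2]
  exact div_le_div_of_nonneg_right k l2pos.le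

end Vale.Agent.P322
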