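import Vale.Agent.P322.Box

/-! Fixed-point interval arithmetic (scale `2^48`). -/

namespace Vale.Agent.P322
open Real Set

def SS : ℕ := 281474976710656

structure Iv where
  lo : ℕ
  hi : ℕ

def Mem (x : ℝ) (I : Iv) : Prop := (I.lo : ℝ) ≤ x * SS ∧ x * SS ≤ I.hi

namespace Iv
def add (a b : Iv) : Iv := ⟨Nat.add a.lo b.lo, Nat.add a.hi b.hi⟩
def sub (a b : Iv) : Iv := ⟨Nat.sub a.lo b.hi, Nat.sub a.hi b.lo⟩
def mul (a b : Iv) : Iv :=
  ⟨Nat.div (Nat.mul a.lo b.lo) SS, Nat.add (Nat.div (Nat.mul a.hi b.hi) SS) 1⟩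
def dv (a b : Iv) : Iv :=
  ⟨Nat.div (Nat.mul a.lo SS) b.hi, Nat.add (Nat.div (Nat.mul a.hi SS) b.lo) 1⟩
def half (a : Iv) : Iv := ⟨Nat.div a.lo 2, Nat.add (Nat.div a.hi 2) 1⟩
def dbl (a : Iv) : Iv := add a a
def pt (p : ℕ) : Iv := ⟨p, p⟩
def le (a b : Iv) : Bool := Nat.ble a.hi b.lo
def ln2 : Iv := ⟨195103586431999, 195103586572737⟩
def one : Iv := pt SS
def two : Iv := pt 562949953421312
def zero : Iv := pt 0
end Iv
open Iv

lemma SSpos : (0 : ℝ) < SS := by unfold SS; norm_num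
lemma SSpos' : 0 < SS := by unfold SS; norm_num

lemma div_lo (a b : ℕ) : ((a / b : ℕ) : ℝ) * b ≤ a := by exact_mod_cast Nat.div_mul_le_self a b
lemma div_hi (a b : ℕ) (hb : 0 < b) : (a : ℝ) ≤ (((a / b : ℕ) : ℝ) + 1) * b := by
  have := Nat.lt_div_mul_add (a := a) hb
  have h : a ≤ (a / b + 1) * b := by rw [add_mul, one_mul]; exact this.le
  exact_mod_cast h

lemma Mem.nonneg {x : ℝ} {I : Iv} (h : Mem x I) : 0 ≤ x := by
  have := le_trans (Nat.cast_nonneg _) h.1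
  exact nonneg_of_mul_nonneg_left this SSpos

lemma mem_add {x y : ℝ} {a b : Iv} (ha : Mem x a) (hb : Mem y b) : Mem (x + y) (add a b) := by
  obtain ⟨h1, h2⟩ := ha; obtain ⟨h3, h4⟩ := hb
  constructor <;> simp only [add, Nat.add_eq, Nat.cast_add] <;> linarith

lemma mem_dbl {x : ℝ} {a : Iv} (ha : Mem x a) : Mem (2 * x) (dbl a) := by
  rw [two_mul]; exact mem_add ha ha

lemma mem_sub {x y : ℝ} {a b : Iv} (ha : Mem x a) (hb : Mem y b) (h : 0 ≤ x - y) :
    Mem (x - y) (sub a b) := by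
  obtain ⟨h1, h2⟩ := ha; obtain ⟨h3, h4⟩ := hb
  constructor <;> simp only [sub, Nat.sub_eq]
  · rcases le_total a.lo b.hi with k | k
    · rw [Nat.sub_eq_zero_of_le k]; simpa using mul_nonneg h SSpos.le
    · rw [Nat.cast_sub k]; linarith
  · rcases le_total a.hi b.lo with k | k
    · rw [Nat.sub_eq_zero_of_le k]
      have : (a.hi : ℝ) ≤ b.lo := by exact_mod_cast k
      simp only [Nat.cast_zero]; linarith
    · rw [Nat.cast_sub k]; linarith

lemma mul_lo {x y : ℝ} {a b : ℕ} (h1 : (a : ℝ) ≤ x * SS) (h3 : (b : ℝ) ≤ y * SS) :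
    ((a * b / SS : ℕ) : ℝ) ≤ x * y * SS := by
  have h := div_lo (a * b) SS
  have hS := SSpos
  have : (a : ℝ) * b ≤ (x * SS) * (y * SS) :=
    mul_le_mul h1 h3 (Nat.cast_nonneg _) (le_trans (Nat.cast_nonneg _) h1)
  push_cast at h
  exact le_of_mul_le_mul_right (by nlinarith) hS

lemma mul_hi {x y : ℝ} {a b : ℕ} (hx : 0 ≤ x) (hy : 0 ≤ y) (h1 : x * SS ≤ (a : ℝ))
    (h3 : y * SS ≤ (b : ℝ)) : x * y * SS ≤ ((a * b / SS : ℕ) : ℝ) + 1 := by
  have h := div_hi (a * b) SS SSpos'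
  have hS := SSpos
  have : (x * SS) * (y * SS) ≤ (a : ℝ) * b :=
    mul_le_mul h1 h3 (by positivity) (Nat.cast_nonneg _)
  push_cast at h
  exact le_of_mul_le_mul_right (by nlinarith) hS

lemma mem_mul {x y : ℝ} {a b : Iv} (ha : Mem x a) (hb : Mem y b) : Mem (x * y) (mul a b) := by
  constructor
  · exact mul_lo ha.1 hb.1
  · have := mul_hi ha.nonneg hb.nonneg ha.2 hb.2
    show _ ≤ ((a.hi * b.hi / SS + 1 : ℕ) : ℝ)
    rw [Nat.cast_add, Nat.cast_one]; exact this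

lemma mem_dv {x y : ℝ} {a b : Iv} (ha : Mem x a) (hb : Mem y b) (hp : 0 < b.lo) :
    Mem (x / y) (dv a b) := by
  have hS := SSpos
  have hx := ha.nonneg
  obtain ⟨h1, h2⟩ := ha; obtain ⟨h3, h4⟩ := hb
  have hp' : (0 : ℝ) < b.lo := by exact_mod_cast hp
  have hy : 0 < y := pos_of_mul_pos_right (show 0 < SS * y by linarith) hS.le |> fun h => h
  constructor
  · have h := div_lo (a.lo * SS) b.hi
    show ((a.lo * SS / b.hi : ℕ) : ℝ) ≤ _
    set q : ℝ := ((a.lo * SS / b.hi : ℕ) : ℝ)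
    have hq : 0 ≤ q := Nat.cast_nonneg _
    push_cast at h
    rw [div_mul_eq_mul_div, le_div_iff₀ hy]
    have := mul_le_mul_of_nonneg_left h4 hq
    exact le_of_mul_le_mul_right (by nlinarith) hS
  · have h := div_hi (a.hi * SS) b.lo hp
    show _ ≤ ((a.hi * SS / b.lo + 1 : ℕ) : ℝ)
    push_cast at h ⊢
    set q : ℝ := ((a.hi * SS / b.lo : ℕ) : ℝ)
    have hq : 0 ≤ q := Nat.cast_nonneg _
    rw [div_mul_eq_mul_div, div_le_iff₀ hy]
    have := mul_le_mul_of_nonneg_left h3 (show 0 ≤ q + 1 by linarith)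
    exact le_of_mul_le_mul_right (by nlinarith) hS

lemma mem_half {x : ℝ} {a : Iv} (ha : Mem x a) : Mem (x / 2) (half a) := by
  obtain ⟨h1, h2⟩ := ha
  constructor
  · have h := div_lo a.lo 2
    show ((a.lo / 2 : ℕ) : ℝ) ≤ _
    push_cast at h; linarith
  · have h := div_hi a.hi 2 (by norm_num)
    show _ ≤ ((a.hi / 2 + 1 : ℕ) : ℝ)
    push_cast at h ⊢; linarith

lemma mem_pt (p : ℕ) : Mem ((p : ℝ) / SS) (pt p) := by
  have := SSpos
  constructor <;> simp only [pt] <;> rw [div_mul_cancel₀ _ this.ne']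

lemma mem_one : Mem 1 one := by simp [Mem, one, pt]
lemma mem_two : Mem 2 two := by simp only [Mem, two, pt, SS]; norm_num
lemma mem_zero : Mem 0 zero := by simp [Mem, zero, pt]
lemma mem_ln2 : Mem (log 2) ln2 := by
  have := l2lo; have := l2hi
  simp only [Mem, ln2, SS]; constructor <;> norm_num <;> linarith

lemma le_sound {x y : ℝ} {a b : Iv} (ha : Mem x a) (hb : Mem y b) (h : le a b = true) :
    x ≤ y := by
  have : (a.hi : ℝ) ≤ b.lo := by exact_mod_cast Nat.le_of_ble_eq_true h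
  exact le_of_mul_le_mul_right (by linarith [ha.2, hb.1]) SSpos

lemma Mem.congr {x y : ℝ} {a : Iv} (h : Mem x a) (e : x = y) : Mem y a := e ▸ h

noncomputable def hlo (w : ℕ) (n : ℕ) : ℕ → ℕ :=
  Nat.rec (fun acc => acc) (fun i ih acc =>
    ih (Nat.add (Nat.div SS (Nat.add (Nat.mul 2 i) 1)) (Nat.div (Nat.mul w acc) SS))) n

noncomputable def hhi (w : ℕ) (n : ℕ) : ℕ → ℕ :=
  Nat.rec (fun acc => acc) (fun i ih acc =>
    ih (Nat.add (Nat.add (Nat.div SS (Nat.add (Nat.mul 2 i) 1))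
      (Nat.div (Nat.mul w acc) SS)) 2)) n

lemma hlo_le {w : ℕ} {o : ℝ} (hw : (w : ℝ) ≤ o * SS) (n : ℕ) : ∀ (acc : ℕ) (R : ℝ),
    (acc : ℝ) ≤ R * SS →
      (hlo w n acc : ℝ) ≤ (∑ j ∈ Finset.range n, o ^ j / (2 * j + 1) + o ^ n * R) * SS := by
  induction n with
  | zero => intro acc R h; simpa [hlo] using h
  | succ i ih =>
    intro acc R h
    have e : hlo w (i + 1) acc = hlo w i (SS / (2 * i + 1) + w * acc / SS) := rfl
    have h1 := mul_lo hw h
    have h2 := div_lo SS (2 * i + 1)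
    have h3 : ((SS / (2 * i + 1) : ℕ) : ℝ) ≤ 1 / (2 * i + 1) * SS := by
      push_cast at h2
      rw [one_div_mul_eq_div, le_div_iff₀ (by positivity)]; exact h2
    have := ih (SS / (2 * i + 1) + w * acc / SS) (1 / (2 * i + 1) + o * R)
      (by rw [Nat.cast_add]; linarith)
    rw [e, Finset.sum_range_succ]
    refine this.trans (le_of_eq ?_)
    ring

lemma le_hhi {w : ℕ} {o : ℝ} (ho : 0 ≤ o) (hw : o * SS ≤ (w : ℝ)) (n : ℕ) :
    ∀ (acc : ℕ) (R : ℝ), 0 ≤ R → R * SS ≤ (acc : ℝ) →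
      (∑ j ∈ Finset.range n, o ^ j / (2 * j + 1) + o ^ n * R) * SS ≤ (hhi w n acc : ℝ) := by
  induction n with
  | zero => intro acc R _ h; simpa [hhi] using h
  | succ i ih =>
    intro acc R hR h
    have e : hhi w (i + 1) acc = hhi w i (SS / (2 * i + 1) + w * acc / SS + 2) := rfl
    have h1 := mul_hi ho hR hw h
    have h2 := div_hi SS (2 * i + 1) (by omega)
    have h3 : 1 / (2 * i + 1) * (SS : ℝ) ≤ ((SS / (2 * i + 1) : ℕ) : ℝ) + 1 := by
      push_cast at h2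
      rw [one_div_mul_eq_div, div_le_iff₀ (by positivity)]; exact h2
    have := ih (SS / (2 * i + 1) + w * acc / SS + 2) (1 / (2 * i + 1) + o * R) (by positivity)
      (by rw [Nat.cast_add, Nat.cast_add]; push_cast; linarith)
    rw [e, Finset.sum_range_succ]
    refine le_trans (le_of_eq ?_) this
    ring

noncomputable def ath (z : ℕ) : Iv :=
  ⟨Nat.div (Nat.mul z (hlo (Nat.div (Nat.mul z z) SS) 12 0)) SS,
    Nat.add (Nat.div (Nat.mul (Nat.add z 1) (hhi (Nat.add (Nat.div (Nat.mul (Nat.add z 1)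
      (Nat.add z 1)) SS) 1) 12 562949953421312)) SS) 1⟩

lemma mem_ath {z : ℕ} {t : ℝ} (h0 : 0 ≤ t) (h3 : t ≤ 1 / 3) (h1 : (z : ℝ) ≤ t * SS)
    (h2 : t * SS ≤ ((z + 1 : ℕ) : ℝ)) : Mem (1 / 2 * log ((1 + t) / (1 - t))) (ath z) := by
  have e : ∑ i ∈ Finset.range 12, t ^ (2 * i + 1) / (2 * i + 1) =
      t * ∑ j ∈ Finset.range 12, (t * t) ^ j / (2 * j + 1) := by
    rw [Finset.mul_sum]; refine Finset.sum_congr rfl (fun i _ => ?_); ring
  constructor
  · have a := hlo_le (mul_lo h1 h1) 12 0 0 (by simp)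
    have b := mul_lo h1 a
    have c := sum_range_le_log_div h0 (by linarith) 12
    rw [e] at c
    refine le_trans b (mul_le_mul_of_nonneg_right ?_ SSpos.le)
    simpa using c
  · have a0 := mul_hi h0 h0 h2 h2
    have a := le_hhi (w := (z + 1) * (z + 1) / SS + 1) (o := t * t) (by positivity)
      (by rw [Nat.cast_add]; simpa using a0) 12 562949953421312 2 (by norm_num)
      (by unfold SS; norm_num)
    have b := mul_hi h0 (by positivity) h2 a
    have c := log_div_le_sum_range_add h0 (by linarith) 12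
    rw [e] at c
    have d : t ^ (2 * 12 + 1) / (1 - t ^ 2) ≤ t * ((t * t) ^ 12 * 2) := by
      rw [div_le_iff₀ (by nlinarith)]
      have : 0 ≤ t ^ 25 := by positivity
      have e2 : t * ((t * t) ^ 12 * 2) * (1 - t ^ 2) = t ^ 25 * (2 * (1 - t ^ 2)) := by ring
      rw [e2]; norm_num
      exact le_mul_of_one_le_right this (by nlinarith)
    refine le_trans (mul_le_mul_of_nonneg_right ?_ SSpos.le) (b.trans (le_of_eq ?_))
    · rw [mul_add]; linarith
    · show _ = (((z + 1) * hhi ((z + 1) * (z + 1) / SS + 1) 12 562949953421312 / SS + 1 : ℕ) : ℝ)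
      rw [Nat.cast_add (_ / SS), Nat.cast_one]

noncomputable def logJ (k : ℕ) (t : Iv) : Iv :=
  ⟨Nat.add (Nat.mul k ln2.lo) (Nat.mul 2 t.lo), Nat.add (Nat.mul k ln2.hi) (Nat.mul 2 t.hi)⟩

noncomputable def logK (a k c : ℕ) : Iv :=
  logJ k (ath (Nat.div (Nat.mul (Nat.sub a c) SS) (Nat.add a c)))

noncomputable def logL (a b k : ℕ) : Iv := logK a k (Nat.mul b (Nat.pow 2 k))

noncomputable def logI (a b : ℕ) : Iv := logL a b (Nat.log2 (Nat.div a b))

lemma mem_logI {a b : ℕ} (hb : 0 < b) (hab : b ≤ a) : Mem (log ((a : ℝ) / b)) (logI a b) := by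
  set k := Nat.log2 (a / b) with hk
  set c := b * 2 ^ k with hc
  have hq : a / b ≠ 0 := (Nat.div_pos hab hb).ne'
  have c1 : c ≤ a := le_trans (Nat.mul_le_mul_left b (Nat.log2_self_le hq)) (Nat.mul_div_le a b)
  have c2 : a < 2 * c := by
    have h : a / b < 2 ^ (k + 1) := Nat.lt_log2_self
    rw [Nat.div_lt_iff_lt_mul hb] at h
    rw [hc]; calc a < 2 ^ (k + 1) * b := h
      _ = 2 * (b * 2 ^ k) := by ring
  have c0 : 0 < c := by positivity
  have r0 : (0 : ℝ) < c := by exact_mod_cast c0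
  have r1 : (c : ℝ) ≤ a := by exact_mod_cast c1
  have r2 : (a : ℝ) < 2 * c := by exact_mod_cast c2
  have rb : (0 : ℝ) < b := by exact_mod_cast hb
  have p : (0 : ℝ) < a + c := by linarith
  have d1 := div_lo ((a - c) * SS) (a + c)
  have d2 := div_hi ((a - c) * SS) (a + c) (by omega)
  rw [Nat.cast_mul, Nat.cast_sub c1, Nat.cast_add] at d1 d2
  have m := mem_ath (z := (a - c) * SS / (a + c)) (t := ((a : ℝ) - c) / (a + c))
    (div_nonneg (by linarith) p.le) (by rw [div_le_iff₀ p]; linarith)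
    (by rw [div_mul_eq_mul_div, le_div_iff₀ p]; exact d1)
    (by rw [div_mul_eq_mul_div, div_le_iff₀ p, Nat.cast_add]; simpa using d2)
  have e1 : (1 + ((a : ℝ) - c) / (a + c)) / (1 - (a - c) / (a + c)) = a / c := by
    have : (1 : ℝ) - (a - c) / (a + c) = 2 * c / (a + c) := by field_simp; ring
    rw [this]; field_simp; ring
  have e2 : log ((a : ℝ) / b) = k * log 2 + log ((a : ℝ) / c) := by
    have : (a : ℝ) / b = 2 ^ k * (a / c) := by rw [hc]; push_cast; field_simp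
    rw [this, log_mul (by positivity) (div_pos (by linarith) r0).ne', log_pow]
  rw [e1] at m
  obtain ⟨m1, m2⟩ := m
  obtain ⟨l1, l2⟩ := mem_ln2
  have k0 : (0 : ℝ) ≤ k := Nat.cast_nonneg _
  have f1 := mul_le_mul_of_nonneg_left l1 k0
  have f2 := mul_le_mul_of_nonneg_left l2 k0
  rw [e2]
  constructor
  · show ((k * ln2.lo + 2 * (ath ((a - c) * SS / (a + c))).lo : ℕ) : ℝ) ≤ _
    push_cast; linarith
  · show _ ≤ ((k * ln2.hi + 2 * (ath ((a - c) * SS / (a + c))).hi : ℕ) : ℝ)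
    push_cast; linarith

structure Pt where
  X : Iv
  A : Iv
  Ph : Iv
  H : Iv
  G : Iv
  XX : Iv
  Om : Iv
  L : Iv
  gam : Iv
  al : Iv
  k : Iv
  ok : Bool

noncomputable def mk3 (p : ℕ) (A D XA XX Om el : Iv) : Pt :=
  let X := pt p
  let H := sub el XA
  let G := sub (dbl D) XA
  let L := sub (dv X (mul Om A)) one
  let al := dv XX (mul Om el)
  { X := X, A := A, Ph := sub XA D, H := H, G := G, XX := XX, Om := Om, L := L,
    gam := add G (mul L H), al := al, k := add A (dv (mul al H) X),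
    ok := Nat.blt 0 p && Nat.blt p SS && Nat.blt 0 (mul Om A).lo && Nat.blt 0 (mul Om el).lo &&
      Nat.blt 0 Om.lo }

noncomputable def mk2 (p : ℕ) (A D : Iv) : Pt :=
  mk3 p A D (mul (pt p) A) (mul (pt p) (pt p)) (sub one (mul (pt p) (pt p))) (add ln2 D)

noncomputable def mk1 (p : ℕ) (Lp Lm : Iv) : Pt := mk2 p (half (add Lp Lm)) (half (sub Lm Lp))

noncomputable def mkP (p : ℕ) : Pt :=
  mk1 p (logI (Nat.add SS p) SS) (logI SS (Nat.sub SS p))

structure PtOk (x : ℝ) (P : Pt) : Prop where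
  p0 : 0 < x
  p1 : x < 1
  X : Mem x P.X
  A : Mem (At x) P.A
  Ph : Mem (Ph x) P.Ph
  H : Mem (Hh x) P.H
  G : Mem (Gg x) P.G
  XX : Mem (x ^ 2) P.XX
  Om : Mem (1 - x ^ 2) P.Om
  L : Mem (Ll x) P.L
  gam : Mem (gam x) P.gam
  al : Mem (al x) P.al
  k : Mem (kk x) P.k
  om : 0 < P.Om.lo
  xp : 0 < P.X.lo

lemma mkP_ok {p : ℕ} (h : (mkP p).ok = true) : PtOk ((p : ℝ) / SS) (mkP p) := by
  simp only [mkP, mk1, mk2, mk3, Bool.and_eq_true, Nat.blt_eq] at h
  obtain ⟨⟨⟨⟨h0, h1⟩, h2⟩, h3⟩, h4⟩ := h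
  have hS := SSpos
  have r1 : (p : ℝ) < SS := by exact_mod_cast h1
  have x0 : 0 < (p : ℝ) / SS := div_pos (by exact_mod_cast h0) hS
  have x1 : (p : ℝ) / SS < 1 := by rwa [div_lt_one hS]
  set x := (p : ℝ) / SS with hx
  have mLp : Mem (log (1 + x)) (logI (SS + p) SS) :=
    (mem_logI SSpos' (Nat.le_add_right _ _)).congr (by
      congr 1; rw [hx]; push_cast; field_simp)
  have mLm : Mem (-log (1 - x)) (logI SS (SS - p)) :=
    (mem_logI (by omega) (Nat.sub_le _ _)).congr (by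
      rw [← log_inv]; congr 1; rw [hx, Nat.cast_sub h1.le]
      have : (SS : ℝ) - p ≠ 0 := by linarith
      field_simp)
  have mX := mem_pt p
  rw [← hx] at mX
  have hD := Dm_nonneg x0.le x1
  have mA : Mem (At x) _ := (mem_half (mem_add mLp mLm)).congr (by unfold At; ring)
  have mD : Mem (Dm x) _ := (mem_half (mem_sub mLm mLp (by unfold Dm at hD; linarith))).congr
    (by unfold Dm; ring)
  have mXA := mem_mul mX mA
  have mXX : Mem (x ^ 2) _ := (mem_mul mX mX).congr (by ring)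
  have mOm := mem_sub mem_one mXX (om_pos (by linarith) x1).le
  have mel : Mem (ell x) _ := mem_add mem_ln2 mD
  have mH : Mem (Hh x) _ := (mem_sub mel mXA (by
    rw [← Hh_eq]; exact (Hh_pos (by linarith) x1).le)).congr (Hh_eq x).symm
  have mG : Mem (Gg x) _ := (mem_sub (mem_dbl mD) mXA (by
    rw [← Gg_eq]; exact Gg_nonneg x0.le x1)).congr (Gg_eq x).symm
  have mP : Mem (Ph x) _ := (mem_sub mXA mD (by
    rw [← Ph_eq]; exact Ph_nonneg (by linarith) x1.le)).congr (Ph_eq x).symm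
  have mL : Mem (Ll x) _ := mem_sub (mem_dv mX (mem_mul mOm mA) h2) mem_one (Ll_nonneg x0 x1)
  have mal : Mem (al x) _ := mem_dv mXX (mem_mul mOm mel) h3
  exact ⟨x0, x1, mX, mA, mP, mH, mG, mXX, mOm, mL, mem_add mG (mem_mul mL mH), mal,
    mem_add mA (mem_dv (mem_mul mal mH) mX h0), h4, h0⟩

end Vale.Agent.P322
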