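import Vale.Agent.P322.Cube

/-! Integrating the entropy-production bounds along the noise semigroup. -/

namespace Vale.Agent.P322
open Real Set Filter Topology

noncomputable def Nh (r : ℝ) : ℝ := 1 / (2 * r ^ 2) - 1 / 2 + log r / 3 - (1 - r ^ 2) / 3

lemma hd_Nh {r : ℝ} (h : 0 < r) : HasDerivAt Nh (-1 / r ^ 3 + 1 / (3 * r) + 2 * r / 3) r := by
  have := ((((hasDerivAt_const r (1:ℝ)).div (((hasDerivAt_id r).pow 2).const_mul 2)
    (by simp; linarith)).sub_const (1 / 2)).add ((hasDerivAt_log h.ne').div_const 3)).sub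
    ((((hasDerivAt_id r).pow 2).const_sub 1).div_const 3)
  refine HasDerivAt.congr_deriv this ?_
  simp only [id, Pi.pow_apply]; field_simp; ring

lemma Nh_one : Nh 1 = 0 := by unfold Nh; norm_num

lemma Nh_nonneg {r : ℝ} (h0 : 0 < r) (h : r ≤ 1) : 0 ≤ Nh r := by
  have := mono_of_deriv' (f := fun s => -Nh s) h (fun s hs => (hd_Nh (by linarith [hs.1])).neg)
    (fun s hs => by
      have s0 : 0 < s := by linarith [hs.1]
      have e : -(-1 / s ^ 3 + 1 / (3 * s) + 2 * s / 3) =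
          (1 - s ^ 2) * (3 + 2 * s ^ 2) / (3 * s ^ 3) := by field_simp; ring
      have := om_pos (x := s) (by linarith) hs.2
      rw [e]; positivity)
  simp only [Nh_one] at this; linarith

lemma hd_quot {N : ℝ → ℝ} {N' r : ℝ} (h0 : 0 < r) (h : r < 1) (hN : HasDerivAt N N' r) :
    HasDerivAt (fun s => N s / (s * At s)) ((r * N' - (2 + Ll r) * N r) / (r ^ 2 * At r)) r := by
  have a := At_pos h0 h
  have := hN.div ((hasDerivAt_id r).mul (hd_At (by linarith) h)) (by simp; constructor <;> linarith)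
  refine HasDerivAt.congr_deriv this ?_
  have e : r * (1 / (1 - r ^ 2)) = Ll r * At r + At r := by rw [Ll_mul h0 h]; ring
  simp only [id, Pi.mul_apply]; rw [e]; field_simp; ring

lemma g_nonneg {r : ℝ} (h0 : 1 / 4 ≤ r) (h : r < 1) :
    0 ≤ (1 / 2 - Hh r) / (r * At r) + (2 * log 2 - 1) * Nh r := by
  have r0 : 0 < r := by linarith
  have a := At_pos r0 h
  have l1 := l2lo
  have l2 := l2hi
  have b := mul_le_mul_of_nonneg_left (At_ge2 r0.le h) r0.le
  have c := mul_le_mul_of_nonneg_left b (Nh_nonneg r0 h.le)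
  have p := Ph_ge0 r0.le h.le
  have lg : -1.3863 ≤ log r := by
    have := log_le_log (by positivity) (show (1 / 2 : ℝ) ^ 2 ≤ r by linarith)
    rw [log_pow, one_div, log_inv] at this; push_cast at this; linarith
  have e : Nh r * (r * (r + r ^ 3 / 3)) = 1 / 2 - 2 / 3 * r ^ 2 + r ^ 4 / 18 + r ^ 6 / 9 +
      (r ^ 2 / 3 + r ^ 4 / 9) * log r := by unfold Nh; field_simp; ring
  have q1 : r ^ 2 ≤ 1 := by nlinarith
  have q4 : r ^ 4 ≤ r ^ 2 := by nlinarith [sq_nonneg r]
  have f := mul_le_mul_of_nonneg_left lg (show 0 ≤ r ^ 2 / 3 + r ^ 4 / 9 by positivity)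
  have g : 1 / 2 - 1.29 * r ^ 2 ≤ Nh r * (r * At r) := by
    have : 0 ≤ r ^ 6 := by positivity
    have : 0 ≤ r ^ 2 := by positivity
    linarith
  have k := mul_le_mul_of_nonneg_left g (show 0 ≤ 2 * log 2 - 1 by linarith)
  have : (1 / 2 - Hh r) / (r * At r) + (2 * log 2 - 1) * Nh r =
      (1 / 2 - Hh r + (2 * log 2 - 1) * (Nh r * (r * At r))) / (r * At r) := by field_simp
  rw [this]
  apply div_nonneg _ (by positivity)
  unfold Hh
  nlinarith [mul_le_mul_of_nonneg_right l2.le (sq_nonneg r), sq_nonneg r]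

section
variable {I D : ℝ → ℝ} {μ : ℝ} (m0 : -1 ≤ μ) (m1 : μ ≤ 1)
  (hd : ∀ r, 0 < r → r < 1 → HasDerivAt I (D r / r) r)
  (hi : ∀ r, 0 < r → r < 1 → Inv (D r) μ (Hh μ - I r)) (hb : ∀ r, 0 < r → r < 1 → I r ≤ Hh μ)
include m0 m1 hd hi hb

lemma ode_hi {ρ : ℝ} (h0 : 1 / 4 ≤ ρ) (h1 : ρ < 1) : I ρ ≤ Ph ρ := by
  have l1 := l2lo
  have pm := Ph_ge m0 m1
  have q1 : μ ^ 2 ≤ 1 := by nlinarith
  have key : ∀ r ∈ Ico ρ 1, (I ρ - Ph ρ + μ ^ 2 * (1 / 2 - Hh ρ)) / (ρ * At ρ) +
      μ ^ 2 * (2 * log 2 - 1) * Nh ρ ≤ 16 * Hh r + μ ^ 2 * (2 * log 2 - 1) * Nh r := by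
    intro r hr
    have a := mono_of_deriv' (f := fun s => (I s - Ph s + μ ^ 2 * (1 / 2 - Hh s)) / (s * At s) +
      μ ^ 2 * (2 * log 2 - 1) * Nh s) hr.1 (fun s hs => by
        have s0 : 0 < s := by linarith [hs.1]
        have s1 : s < 1 := by linarith [hs.2, hr.2]
        exact (hd_quot s0 s1 (((hd s s0 s1).sub (hd_Ph (by linarith) s1)).add
          (((hd_Hh (by linarith) s1).const_sub (1 / 2)).const_mul (μ ^ 2)))).add
          ((hd_Nh s0).const_mul _)) (fun s hs => by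
        have s0 : 0 < s := by linarith [hs.1]
        have s1 : s < 1 := by linarith [hs.2, hr.2]
        have t := (hi s s0 s1).t8 s s0 s1
        have a := At_pos s0 s1
        have ho := om_pos (by linarith) s1
        have L := mul_le_mul_of_nonneg_left pm (Ll_nonneg s0 s1)
        have b : μ ^ 2 * (2 * log 2 - 1) ≤ s * (D s / s - At s + μ ^ 2 * - -At s) -
            (2 + Ll s) * (I s - Ph s + μ ^ 2 * (1 / 2 - Hh s)) := by
          rw [show s * (D s / s - At s + μ ^ 2 * - -At s) = D s - (1 - μ ^ 2) * (s * At s) by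
            field_simp; ring]
          unfold gam Gg Hh at *; linarith
        have c := div_le_div_of_nonneg_right b (show 0 ≤ s ^ 2 * At s by positivity)
        have e : 0 ≤ 1 / (s ^ 2 * At s) + (-1 / s ^ 3 + 1 / (3 * s) + 2 * s / 3) := by
          have u := At_le1 s0.le s1
          have u2 : At s * ((1 - s ^ 2) * (3 + 2 * s ^ 2)) ≤ 3 * s := by
            have v := mul_le_mul_of_nonneg_right u
              (show 0 ≤ (1 - s ^ 2) * (3 + 2 * s ^ 2) by positivity)
            have e : (s + s ^ 3 / (3 * (1 - s ^ 2))) * ((1 - s ^ 2) * (3 + 2 * s ^ 2)) =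
                3 * s - 4 / 3 * s ^ 5 := by field_simp; ring
            have : 0 ≤ s ^ 5 := by positivity
            linarith
          have e : 1 / (s ^ 2 * At s) + (-1 / s ^ 3 + 1 / (3 * s) + 2 * s / 3) =
              (3 * s - At s * ((1 - s ^ 2) * (3 + 2 * s ^ 2))) / (3 * s ^ 3 * At s) := by
            field_simp; ring
          rw [e]; exact div_nonneg (by linarith) (by positivity)
        have f := mul_nonneg (show 0 ≤ μ ^ 2 * (2 * log 2 - 1) from
          mul_nonneg (sq_nonneg μ) (by linarith)) e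
        rw [div_eq_mul_one_div] at c
        simp only [Pi.add_apply, Pi.sub_apply]
        linarith)
    have r0 : 0 < r := by linarith [hr.1]
    have H := Hh_pos (x := r) (by linarith) hr.2
    have b : (I r - Ph r + μ ^ 2 * (1 / 2 - Hh r)) / (r * At r) ≤ 16 * Hh r := by
      have t := mul_le_mul_of_nonneg_left (At_ge1 r0.le hr.2) r0.le
      have t2 : 1 ≤ 16 * (r * At r) := by nlinarith [hr.1]
      rw [div_le_iff₀ (by linarith)]
      have := hb r r0 hr.2
      have := mul_nonneg (sq_nonneg μ) H.le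
      have := mul_le_mul_of_nonneg_left t2 H.le
      unfold Hh at *; linarith
    linarith
  have lim : Tendsto (fun r => 16 * Hh r + μ ^ 2 * (2 * log 2 - 1) * Nh r) (𝓝[<] 1) (𝓝 0) := by
    have : ContinuousAt (fun r => 16 * Hh r + μ ^ 2 * (2 * log 2 - 1) * Nh r) 1 :=
      (((continuous_const.sub continuous_Ph).continuousAt).const_mul 16).add
        ((hd_Nh one_pos).continuousAt.const_mul _)
    have := this.tendsto.mono_left (nhdsWithin_le_nhds (s := Iio 1))
    simpa [Hh, Ph_one, Nh_one] using this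
  have fin := ge_of_tendsto lim (mem_of_superset (Ico_mem_nhdsLT h1) key)
  have g := mul_nonneg (sq_nonneg μ) (g_nonneg h0 h1)
  have r0 : 0 < ρ := by linarith
  have a := mul_pos r0 (At_pos r0 h1)
  have : (I ρ - Ph ρ) / (ρ * At ρ) ≤ 0 := by
    rw [add_div, mul_div_assoc] at fin; linarith
  rw [div_le_iff₀ a] at this; linarith

lemma ode {ρ : ℝ} (h0 : 0 < ρ) (h1 : ρ < 1) : I ρ ≤ Ph ρ := by
  rcases le_total (1 / 4) ρ with h | h
  · exact ode_hi m0 m1 hd hi hb h h1
  have a := mono_of_deriv' (f := fun s => (I s - Ph s) / (s * At s)) h (fun s hs => by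
      have s0 : 0 < s := by linarith [hs.1]
      have s1 : s < 1 := by linarith [hs.2]
      exact hd_quot s0 s1 ((hd s s0 s1).sub (hd_Ph (by linarith) s1))) (fun s hs => by
      have s0 : 0 < s := by linarith [hs.1]
      have s1 : s < 1 := by linarith [hs.2]
      have t := (hi s s0 s1).s1 s s0 hs.2.le
      have a := At_pos s0 s1
      apply div_nonneg _ (by positivity)
      rw [show s * (D s / s - At s) = D s - s * At s by field_simp]
      unfold Gg at t; linarith)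
  have b := ode_hi m0 m1 hd hi hb le_rfl (by norm_num)
  have c : (I (1 / 4) - Ph (1 / 4)) / (1 / 4 * At (1 / 4)) ≤ 0 :=
    div_nonpos_of_nonpos_of_nonneg (by linarith)
      (mul_pos (by norm_num) (At_pos (by norm_num) (by norm_num))).le
  have := a.trans c
  rw [div_le_iff₀ (mul_pos h0 (At_pos h0 h1))] at this; linarith

end

/-- noise weight and noise operator -/
noncomputable def wt {n : ℕ} (r : ℝ) (z : Cu n) : ℝ := ∏ i, (1 + r * ((z i : ℤ) : ℝ)) / 2

noncomputable def TT {n : ℕ} (r : ℝ) (f : Cu n → ℝ) (y : Cu n) : ℝ := ∑ z, wt r z * f (y * z)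

lemma TT_zero (r : ℝ) (f : Cu 0 → ℝ) (y : Cu 0) : TT r f y = f y := by
  unfold TT wt; rw [Fintype.sum_unique, Fin.prod_univ_zero, one_mul]
  exact congrArg f (Subsingleton.elim _ _)

lemma cons_mul {n : ℕ} (b c : ℤˣ) (y z : Cu n) :
    (Fin.cons b y * Fin.cons c z : Cu (n + 1)) = Fin.cons (b * c) (y * z) := by
  funext i; refine Fin.cases ?_ (fun j => ?_) i <;> simp

lemma TT_sl {n : ℕ} (r : ℝ) (f : Cu (n + 1) → ℝ) (b : ℤˣ) : sl b (TT r f) = fun y =>
    (1 + r) / 2 * TT r (sl b f) y + (1 - r) / 2 * TT r (sl (-b) f) y := by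
  funext y
  unfold TT sl wt
  beta_reduce
  rw [sum_succ]
  simp only [cons_mul, Fin.prod_univ_succ, Fin.cons_zero, Fin.cons_succ, Finset.mul_sum]
  congr 1 <;> refine Finset.sum_congr rfl fun z _ => ?_ <;> simp <;> ring

noncomputable def Lap : (n : ℕ) → (Cu n → ℝ) → Cu n → ℝ
  | 0, _, _ => 0
  | n + 1, h, y => (sl (y 0) h (Fin.tail y) - sl (-y 0) h (Fin.tail y)) / 2 +
      Lap n (sl (y 0) h) (Fin.tail y)

lemma Lap_cons {n : ℕ} (h : Cu (n + 1) → ℝ) (b : ℤˣ) (y : Cu n) :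
    Lap (n + 1) h (Fin.cons b y) = (sl b h y - sl (-b) h y) / 2 + Lap n (sl b h) y := by
  simp [Lap]

lemma Lap_lin (a b : ℝ) : ∀ (n : ℕ) (g h : Cu n → ℝ) (y : Cu n),
    Lap n (fun x => a * g x + b * h x) y = a * Lap n g y + b * Lap n h y
  | 0, _, _, _ => by simp [Lap]
  | n + 1, g, h, y => by
    have := Lap_lin a b n (sl (y 0) g) (sl (y 0) h) (Fin.tail y)
    simp only [Lap]
    rw [show sl (y 0) (fun x => a * g x + b * h x) =
      fun x => a * sl (y 0) g x + b * sl (y 0) h x from rfl, this]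
    unfold sl; ring

lemma hd_TT {r : ℝ} (hr : r ≠ 0) : ∀ (n : ℕ) (f : Cu n → ℝ) (y : Cu n),
    HasDerivAt (fun s => TT s f y) (Lap n (TT r f) y / r) r
  | 0, f, y => by simpa [TT_zero, Lap] using hasDerivAt_const r (f y)
  | n + 1, f, y => by
    rw [← Fin.cons_self_tail y]
    generalize y 0 = b
    generalize Fin.tail y = x
    have e : (fun s => TT s f (Fin.cons b x)) = fun s =>
        (1 + s) / 2 * TT s (sl b f) x + (1 - s) / 2 * TT s (sl (-b) f) x :=
      funext fun s => congrFun (TT_sl s f b) x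
    rw [e, Lap_cons, TT_sl, TT_sl, Lap_lin, neg_neg]
    have := ((((hasDerivAt_id r).const_add 1).div_const 2).mul (hd_TT hr n (sl b f) x)).add
      ((((hasDerivAt_id r).const_sub 1).div_const 2).mul (hd_TT hr n (sl (-b) f) x))
    refine HasDerivAt.congr_deriv this ?_
    simp only [id]; field_simp; ring

lemma DD_eq : ∀ (n : ℕ) (h : Cu n → ℝ), Ex (fun y => At (h y) * Lap n h y) = DD n h
  | 0, h => by simp [Lap, DD, Ex_const]
  | n + 1, h => by
    rw [Ex_succ, DD, ← DD_eq n, ← DD_eq n]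
    rw [div_eq_inv_mul, div_eq_inv_mul, ← Ex_add, ← Ex_add, ← Ex_mul, ← Ex_mul, ← Ex_add]
    congr 1
    funext x
    simp only [sl, Lap_cons, neg_neg, kap]
    ring

lemma Ex_TT (r : ℝ) : ∀ (n : ℕ) (f : Cu n → ℝ), Ex (TT r f) = Ex f
  | 0, f => by rw [Ex_zero, Ex_zero, TT_zero]
  | n + 1, f => by
    rw [Ex_succ, Ex_succ f, TT_sl, TT_sl, Ex_add, Ex_add, Ex_mul, Ex_mul, Ex_mul, Ex_mul, neg_neg,
      Ex_TT r n, Ex_TT r n]; ring

lemma In1_TT {r : ℝ} (h0 : 0 < r) (h1 : r < 1) : ∀ (n : ℕ) (f : Cu n → ℝ), In1 f → In1 (TT r f)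
  | 0, f, h => fun y => by rw [TT_zero]; exact h y
  | n + 1, f, h => fun y => by
    rw [← Fin.cons_self_tail y]
    have a := In1_TT h0 h1 n (sl (y 0) f) (fun x => h _) (Fin.tail y)
    have b := In1_TT h0 h1 n (sl (-y 0) f) (fun x => h _) (Fin.tail y)
    have e := congrFun (TT_sl r f (y 0)) (Fin.tail y)
    unfold sl at e a b
    rw [e]; constructor <;> nlinarith [a.1, a.2, b.1, b.2]

lemma ck_open {n : ℕ} {g : Cu n → ℝ} (hg : In1 g) {ρ : ℝ} (h0 : 0 < ρ) (h1 : ρ < 1) :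
    Ex (fun y => Ph (TT ρ g y)) - Ph (Ex g) ≤ Ph ρ := by
  have eH : ∀ r, Ex (fun y => Hh (TT r g y)) =
      Hh (Ex g) - (Ex (fun y => Ph (TT r g y)) - Ph (Ex g)) := fun r => by
    have := Ex_add (fun y => Hh (TT r g y)) (fun y => Ph (TT r g y))
    simp only [Hh, sub_add_cancel, Ex_const] at this ⊢; linarith
  refine ode (I := fun r => Ex (fun y => Ph (TT r g y)) - Ph (Ex g)) (D := fun r => DD n (TT r g))
    hg.ex.1.le hg.ex.2.le (fun r r0 r1 => ?_) (fun r r0 r1 => ?_) (fun r r0 r1 => ?_) h0 h1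
  · have hT := In1_TT r0 r1 n g hg
    have := ((HasDerivAt.fun_sum (u := Finset.univ) fun y _ =>
      (hd_Ph (hT y).1 (hT y).2).comp r (hd_TT r0.ne' n g y)).div_const (2 ^ n)).sub_const
      (Ph (Ex g))
    refine HasDerivAt.congr_deriv this ?_
    rw [← DD_eq]; unfold Ex
    rw [div_right_comm, Finset.sum_div _ _ r]
    congr 1
    exact Finset.sum_congr rfl fun y _ => by ring
  · have := inv_all n _ (In1_TT r0 r1 n g hg)
    rwa [Ex_TT, eH] at this
  · have hT := In1_TT r0 r1 n g hg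
    have := Ex_mono (f := fun _ => 0) fun y => (Hh_pos (hT y).1 (hT y).2).le
    rw [Ex_const, eH] at this; linarith

theorem ck {n : ℕ} {f : Cu n → ℝ} (hf : ∀ x, -1 ≤ f x ∧ f x ≤ 1) {ρ : ℝ} (h0 : 0 ≤ ρ)
    (h1 : ρ ≤ 1) : Ex (fun y => Ph (TT ρ f y)) - Ph (Ex f) ≤ Ph ρ := by
  have c : Continuous fun t : ℝ => Ex (fun y => Ph (TT ((1 - t) * ρ + t / 2)
      (fun x => (1 - t) * f x) y)) - Ph (Ex fun x => (1 - t) * f x) - Ph ((1 - t) * ρ + t / 2) := by
    have := continuous_Ph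
    unfold Ex TT wt; fun_prop
  have lim := c.continuousAt.tendsto.mono_left (nhdsWithin_le_nhds (s := Ioi 0) (a := 0))
  have := le_of_tendsto lim (b := 0) (mem_of_superset (Ioo_mem_nhdsGT one_pos) fun t ht => by
    have := ck_open (g := fun x => (1 - t) * f x) (ρ := (1 - t) * ρ + t / 2) (fun x => by
      constructor <;> nlinarith [(hf x).1, (hf x).2, ht.1, ht.2])
      (by nlinarith [ht.1, ht.2]) (by nlinarith [ht.1, ht.2])
    exact sub_nonpos.2 this)
  simp only [sub_zero, one_mul, zero_div, add_zero] at this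
  linarith

end Vale.Agent.P322
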