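import Vale.Agent.P322.Fun

/-! Two-point inequalities. -/

namespace Vale.Agent.P322
open Real Set

noncomputable def kap (u w : ℝ) : ℝ := (u - w) * (At u - At w) / 4
noncomputable def jj (u w : ℝ) : ℝ := (Ph u + Ph w) / 2 - Ph ((u + w) / 2)
noncomputable def JJ (m d : ℝ) : ℝ :=
  ((1 + m) * Ph (d / (1 + m)) + (1 - m) * Ph (d / (1 - m))) / 2
noncomputable def KK (m d : ℝ) : ℝ :=
  ((1 + m) * Gg (d / (1 + m)) + (1 - m) * Gg (d / (1 - m))) / 2

lemma kap_comm (u w : ℝ) : kap u w = kap w u := by unfold kap; ring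

section
variable {a d : ℝ} (h1 : -1 < a + d) (h2 : a + d < 1) (h3 : -1 < a - d) (h4 : a - d < 1)
include h1 h2 h3 h4

lemma sp_mem : -1 < d / (1 + a) ∧ d / (1 + a) < 1 := by
  have : 0 < 1 + a := by linarith
  rw [lt_div_iff₀ this, div_lt_iff₀ this]; constructor <;> linarith

lemma sm_mem : -1 < d / (1 - a) ∧ d / (1 - a) < 1 := by
  have : 0 < 1 - a := by linarith
  rw [lt_div_iff₀ this, div_lt_iff₀ this]; constructor <;> linarith

lemma logs4 : log (1 + d / (1 + a)) = log (1 + (a + d)) - log (1 + a) ∧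
    log (1 - d / (1 + a)) = log (1 + (a - d)) - log (1 + a) ∧
    log (1 + d / (1 - a)) = log (1 - (a - d)) - log (1 - a) ∧
    log (1 - d / (1 - a)) = log (1 - (a + d)) - log (1 - a) := by
  have p1 : 1 + a ≠ 0 := by linarith
  have p2 : 1 - a ≠ 0 := by linarith
  refine ⟨?_, ?_, ?_, ?_⟩ <;> rw [← log_div (by linarith) (by linarith)] <;> congr 1 <;>
    field_simp <;> ring

lemma jj_eq : jj (a + d) (a - d) = JJ a d := by
  have p1 : 1 + a ≠ 0 := by linarith
  have p2 : 1 - a ≠ 0 := by linarith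
  obtain ⟨e1, e2, e3, e4⟩ := logs4 h1 h2 h3 h4
  unfold jj JJ Ph
  rw [e1, e2, e3, e4, show (a + d + (a - d)) / 2 = a by ring]
  field_simp; ring

lemma kap_eq : kap (a + d) (a - d) = d * (At (d / (1 + a)) + At (d / (1 - a))) / 2 := by
  obtain ⟨e1, e2, e3, e4⟩ := logs4 h1 h2 h3 h4
  unfold kap At
  rw [e1, e2, e3, e4]; ring

lemma kap_sub : kap (a + d) (a - d) - 2 * jj (a + d) (a - d) = KK a d := by
  have p1 : 1 + a ≠ 0 := by linarith
  have p2 : 1 - a ≠ 0 := by linarith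
  rw [jj_eq h1 h2 h3 h4, kap_eq h1 h2 h3 h4]
  unfold KK JJ Gg
  field_simp; ring

lemma P1 {s t : ℝ} (hs0 : -1 < s) (hs : s < 1) (ht0 : -1 < t) (ht : t < 1) :
    ((1 + a) * Gg s + (s / (1 - s ^ 2) - At s) * (d - (1 + a) * s) +
      ((1 - a) * Gg t + (t / (1 - t ^ 2) - At t) * (d - (1 - a) * t))) / 2 ≤
      kap (a + d) (a - d) - 2 * jj (a + d) (a - d) := by
  have p1 : 0 < 1 + a := by linarith
  have p2 : 0 < 1 - a := by linarith
  rw [kap_sub h1 h2 h3 h4]
  have a1 := mul_le_mul_of_nonneg_left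
    (Gg_tan (sp_mem h1 h2 h3 h4).1 (sp_mem h1 h2 h3 h4).2 hs0 hs) p1.le
  have a2 := mul_le_mul_of_nonneg_left
    (Gg_tan (sm_mem h1 h2 h3 h4).1 (sm_mem h1 h2 h3 h4).2 ht0 ht) p2.le
  have e1 : (1 + a) * (Gg s + (s / (1 - s ^ 2) - At s) * (d / (1 + a) - s)) =
      (1 + a) * Gg s + (s / (1 - s ^ 2) - At s) * (d - (1 + a) * s) := by field_simp
  have e2 : (1 - a) * (Gg t + (t / (1 - t ^ 2) - At t) * (d / (1 - a) - t)) =
      (1 - a) * Gg t + (t / (1 - t ^ 2) - At t) * (d - (1 - a) * t) := by field_simp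
  rw [e1] at a1; rw [e2] at a2
  unfold KK; linarith

lemma P2 {s t : ℝ} (c : ℝ) (hs0 : -1 < s) (hs : s < 1) (ht0 : -1 < t) (ht : t < 1) :
    ((1 + a) * (Ph s - s ^ 2 / 2) + (At s - s) * (d - (1 + a) * s) +
      ((1 - a) * (Ph t - t ^ 2 / 2) + (At t - t) * (d - (1 - a) * t))) / 2 +
      (c * d - c ^ 2 * (1 - a ^ 2) / 2) ≤ jj (a + d) (a - d) := by
  have p1 : 0 < 1 + a := by linarith
  have p2 : 0 < 1 - a := by linarith
  rw [jj_eq h1 h2 h3 h4]
  have a1 := mul_le_mul_of_nonneg_left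
    (Ph_tan2 (sp_mem h1 h2 h3 h4).1 (sp_mem h1 h2 h3 h4).2 hs0 hs) p1.le
  have a2 := mul_le_mul_of_nonneg_left
    (Ph_tan2 (sm_mem h1 h2 h3 h4).1 (sm_mem h1 h2 h3 h4).2 ht0 ht) p2.le
  have e1 : (1 + a) * (Ph s - s ^ 2 / 2 + (At s - s) * (d / (1 + a) - s)) =
      (1 + a) * (Ph s - s ^ 2 / 2) + (At s - s) * (d - (1 + a) * s) := by field_simp
  have e2 : (1 - a) * (Ph t - t ^ 2 / 2 + (At t - t) * (d / (1 - a) - t)) =
      (1 - a) * (Ph t - t ^ 2 / 2) + (At t - t) * (d - (1 - a) * t) := by field_simp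
  rw [e1] at a1; rw [e2] at a2
  have p3 : 0 < 1 - a ^ 2 := by nlinarith
  have e3 : ((1 + a) * ((d / (1 + a)) ^ 2 / 2) + (1 - a) * ((d / (1 - a)) ^ 2 / 2)) / 2 -
      (c * d - c ^ 2 * (1 - a ^ 2) / 2) = (d - c * (1 - a ^ 2)) ^ 2 / (2 * (1 - a ^ 2)) := by
    rw [show 1 - a ^ 2 = (1 + a) * (1 - a) by ring]; field_simp; ring
  have : 0 ≤ (d - c * (1 - a ^ 2)) ^ 2 / (2 * (1 - a ^ 2)) := by positivity
  unfold JJ; nlinarith

end

lemma shift_mul_log {b c D : ℝ} (hb : 0 < b) (hbc : b ≤ c) (hD : 0 ≤ D) :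
    (b + D) * log (b + D) - b * log b ≤ (c + D) * log (c + D) - c * log c :=
  mono_of_deriv' (f := fun s => (s + D) * log (s + D) - s * log s)
    (f' := fun s => log (s + D) - log s) hbc (fun s hs => by
      have h0 : 0 < s := by linarith [hs.1]
      have := (((hasDerivAt_id s).add_const D).mul (((hasDerivAt_id s).add_const D).log
        (by simp; linarith))).sub ((hasDerivAt_id s).mul (hasDerivAt_log h0.ne'))
      refine HasDerivAt.congr_deriv this ?_
      have : s + D ≠ 0 := by linarith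
      simp only [id]; field_simp; ring) (fun s hs => by
      have h0 : 0 < s := by linarith [hs.1]
      have := log_le_log h0 (show s ≤ s + D by linarith); linarith)

lemma two_root {x y : ℝ} (hy : 0 < y) (hyx : y ≤ x) (hs : x + y ≤ 1) :
    (1 - (x - y) ^ 2) * log (1 - (x - y) ^ 2) ≤ -2 * (x - y) * (x * log x - y * log y) := by
  set D := x - y with hD
  have hD0 : 0 ≤ D := by linarith
  have hD1 : D < 1 := by linarith
  have h := shift_mul_log hy (show y ≤ (1 - D) / 2 by linarith) hD0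
  rw [show y + D = x by linarith, show (1 - D) / 2 + D = (1 + D) / 2 by ring,
    log_div (by linarith) (by norm_num), log_div (by linarith) (by norm_num)] at h
  rw [show 1 - D ^ 2 = (1 + D) * (1 - D) by ring, log_mul (by linarith) (by linarith)]
  have hp := Ph_le (x := D) (by linarith) hD1.le
  unfold Ph at hp
  nlinarith [mul_le_mul_of_nonneg_left h hD0]

lemma two_root' {x y : ℝ} (hx : 0 < x) (hy : 0 < y) (hs : x + y ≤ 1) :
    (1 - (x - y) ^ 2) * log (1 - (x - y) ^ 2) ≤ -2 * (x - y) * (x * log x - y * log y) := by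
  rcases le_total y x with h | h
  · exact two_root hy h hs
  · have := two_root hx h (by linarith)
    rw [show (y - x) ^ 2 = (x - y) ^ 2 by ring] at this; linarith

lemma theta_pt {u w : ℝ} (hw : -1 < w) (hwu : w < u) (hu : u < 1) :
    ∃ z, 0 < z ∧ z < 1 ∧ kap u w = (u - w) / 2 * At z ∧
      (u - w) / 2 * (Hh z / z) ≤ (Hh u + Hh w) / 2 := by
  -- square roots of the four probabilities
  obtain ⟨p, hp, ep⟩ : ∃ p : ℝ, 0 < p ∧ p ^ 2 = (1 + u) / 2 :=
    ⟨√((1 + u) / 2), sqrt_pos.2 (by linarith), sq_sqrt (by linarith)⟩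
  obtain ⟨p', hp', ep'⟩ : ∃ p : ℝ, 0 < p ∧ p ^ 2 = (1 - u) / 2 :=
    ⟨√((1 - u) / 2), sqrt_pos.2 (by linarith), sq_sqrt (by linarith)⟩
  obtain ⟨q, hq, eq⟩ : ∃ p : ℝ, 0 < p ∧ p ^ 2 = (1 + w) / 2 :=
    ⟨√((1 + w) / 2), sqrt_pos.2 (by linarith), sq_sqrt (by linarith)⟩
  obtain ⟨q', hq', eq'⟩ : ∃ p : ℝ, 0 < p ∧ p ^ 2 = (1 - w) / 2 :=
    ⟨√((1 - w) / 2), sqrt_pos.2 (by linarith), sq_sqrt (by linarith)⟩
  have lu : log (1 + u) = log 2 + 2 * log p := by
    rw [show 1 + u = 2 * p ^ 2 by linarith, log_mul (by norm_num) (by positivity), log_pow]; simp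
  have lu' : log (1 - u) = log 2 + 2 * log p' := by
    rw [show 1 - u = 2 * p' ^ 2 by linarith, log_mul (by norm_num) (by positivity), log_pow]; simp
  have lw : log (1 + w) = log 2 + 2 * log q := by
    rw [show 1 + w = 2 * q ^ 2 by linarith, log_mul (by norm_num) (by positivity), log_pow]; simp
  have lw' : log (1 - w) = log 2 + 2 * log q' := by
    rw [show 1 - w = 2 * q' ^ 2 by linarith, log_mul (by norm_num) (by positivity), log_pow]; simp
  have hb : 0 < p * q' := by positivity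
  have hc : 0 < p' * q := by positivity
  have hdiff : (p * q') ^ 2 - (p' * q) ^ 2 = (u - w) / 2 := by
    rw [mul_pow, mul_pow, ep, ep', eq, eq']; ring
  have hbc : p' * q < p * q' := by
    by_contra hn
    have := pow_le_pow_left₀ hb.le (not_lt.1 hn) 2
    linarith
  set b := p * q' with hbdef
  set c := p' * q with hcdef
  have hT : 0 < b + c := by linarith
  have lz : log (1 + (b - c) / (b + c)) = log 2 + (log p + log q') - log (b + c) := by
    rw [show 1 + (b - c) / (b + c) = 2 * b / (b + c) by field_simp; ring,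
      log_div (by positivity) hT.ne', log_mul (by norm_num) hb.ne', hbdef,
      log_mul hp.ne' hq'.ne']
  have lz' : log (1 - (b - c) / (b + c)) = log 2 + (log p' + log q) - log (b + c) := by
    rw [show 1 - (b - c) / (b + c) = 2 * c / (b + c) by field_simp; ring,
      log_div (by positivity) hT.ne', log_mul (by norm_num) hc.ne', hcdef,
      log_mul hp'.ne' hq.ne']
  refine ⟨(b - c) / (b + c), div_pos (by linarith) hT, by rw [div_lt_one hT]; linarith, ?_, ?_⟩
  · unfold kap At; rw [lu, lu', lw, lw', lz, lz']; ring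
  · have hsum : (p * q + p' * q') ^ 2 + (b - c) ^ 2 = 1 := by
      have : (p * q + p' * q') ^ 2 + (b - c) ^ 2 = (p ^ 2 + p' ^ 2) * (q ^ 2 + q' ^ 2) := by
        rw [hbdef, hcdef]; ring
      rw [this, ep, ep', eq, eq']; ring
    have hr : 1 - (p * q - p' * q') ^ 2 = (b + c) ^ 2 := by
      have : (p * q - p' * q') ^ 2 + (b + c) ^ 2 = (p ^ 2 + p' ^ 2) * (q ^ 2 + q' ^ 2) := by
        rw [hbdef, hcdef]; ring
      rw [ep, ep', eq, eq'] at this; linarith
    have hle : p * q + p' * q' ≤ 1 := by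
      have h1 : (p * q + p' * q') ^ 2 ≤ 1 ^ 2 := by have := sq_nonneg (b - c); linarith
      exact le_of_sq_le_sq h1 zero_le_one
    have key := two_root' (x := p * q) (y := p' * q') (by positivity) (by positivity) hle
    rw [hr, log_pow, log_mul hp.ne' hq.ne', log_mul hp'.ne' hq'.ne'] at key
    have hbc' : b - c ≠ 0 := by linarith
    have e1 : (u - w) / 2 * (Hh ((b - c) / (b + c)) / ((b - c) / (b + c))) =
        (b + c) ^ 2 * log (b + c) - (b + c) * (b * (log p + log q') + c * (log p' + log q)) := by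
      rw [← hdiff]; unfold Hh Ph; rw [lz, lz']; field_simp; ring
    have e2 : (Hh u + Hh w) / 2 =
        -(p ^ 2 * log p + p' ^ 2 * log p' + q ^ 2 * log q + q' ^ 2 * log q') := by
      unfold Hh Ph; rw [lu, lu', lw, lw', ep, ep', eq, eq']; ring
    have s1 : p ^ 2 + p' ^ 2 = 1 := by rw [ep, ep']; ring
    have s2 : q ^ 2 + q' ^ 2 = 1 := by rw [eq, eq']; ring
    have e3 : p ^ 2 * log p + p' ^ 2 * log p' + q ^ 2 * log q + q' ^ 2 * log q' =
        (p ^ 2 * log p + p' ^ 2 * log p') * (q ^ 2 + q' ^ 2) +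
          (q ^ 2 * log q + q' ^ 2 * log q') * (p ^ 2 + p' ^ 2) := by rw [s1, s2]; ring
    rw [e1, e2, e3]
    have e4 : (b + c) * (b * (log p + log q') + c * (log p' + log q)) -
        ((p ^ 2 * log p + p' ^ 2 * log p') * (q ^ 2 + q' ^ 2) +
          (q ^ 2 * log q + q' ^ 2 * log q') * (p ^ 2 + p' ^ 2)) =
        -(p * q - p' * q') * (p * q * (log p + log q) - p' * q' * (log p' + log q')) := by
      rw [hbdef, hcdef]; ring
    push_cast at key
    linarith

lemma kap_nonneg {u w : ℝ} (hu0 : -1 < u) (hu : u < 1) (hw0 : -1 < w) (hw : w < 1) :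
    0 ≤ kap u w := by
  unfold kap
  rcases le_total u w with h | h
  · have := At_mono hu0 h hw
    have := mul_nonneg_of_nonpos_of_nonpos (show u - w ≤ 0 by linarith)
      (show At u - At w ≤ 0 by linarith)
    linarith
  · have := At_mono hw0 h hu
    have := mul_nonneg (show 0 ≤ u - w by linarith) (show 0 ≤ At u - At w by linarith)
    linarith

lemma P4 {u w y : ℝ} (hu0 : -1 < u) (hu : u < 1) (hw0 : -1 < w) (hw : w < 1) (hy0 : 0 < y)
    (hy : y < 1) : kk y * ((u - w) / 2) ≤ kap u w + al y * ((Hh u + Hh w) / 2) := by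
  have ha := al_pos hy0 hy
  rcases le_or_gt u w with h | h
  · have := kap_nonneg hu0 hu hw0 hw
    have := Hh_pos hu0 hu
    have := Hh_pos hw0 hw
    have := kk_pos hy0 hy
    have : kk y * ((u - w) / 2) ≤ 0 := mul_nonpos_of_nonneg_of_nonpos (by linarith) (by linarith)
    have : 0 ≤ al y * ((Hh u + Hh w) / 2) := by positivity
    linarith
  · obtain ⟨z, hz0, hz, e1, e2⟩ := theta_pt hw0 h hu
    have h3 := mul_le_mul_of_nonneg_right (kk_min hy0 hy hz0 hz)
      (show 0 ≤ (u - w) / 2 by linarith)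
    have h4 := mul_le_mul_of_nonneg_left e2 ha.le
    rw [e1]
    have : (At z + al y * Hh z / z) * ((u - w) / 2) =
        (u - w) / 2 * At z + al y * ((u - w) / 2 * (Hh z / z)) := by ring
    linarith

end Vale.Agent.P322
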