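import Vale.Agent.P322.Zones
import Vale.Agent.P322.Pt

/-! The inductive step, in terms of real numbers only. -/

namespace Vale.Agent.P322
open Real Set

lemma Ll_le_q {x : ℝ} (h0 : 0 < x) (h : x ≤ 1 / 4) : Ll x ≤ 0.72 * x ^ 2 := by
  have h1 : x < 1 := by linarith
  have b := Ll_le h0 h1
  have c := Ll_nonneg h0 h1
  have hq : x ^ 2 ≤ 1 / 16 := by nlinarith
  have q0 : 0 ≤ x ^ 2 := sq_nonneg x
  have e4 : x ^ 4 = x ^ 2 * x ^ 2 := by ring
  have h4 : x ^ 4 ≤ x ^ 2 / 16 := by rw [e4]; nlinarith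
  nlinarith

lemma Ll_le_Ph {x : ℝ} (h0 : 0 < x) (h : x ≤ 1 / 4) : Ll x ≤ 1.44 * Ph x := by
  have := Ll_le_q h0 h
  have := Ph_ge0 h0.le (show x ≤ 1 by linarith)
  linarith

lemma Gg_ge_sq {x : ℝ} (h0 : 0 ≤ x) (h : x ≤ 1 / 4) : 0.34 * Ph x ^ 2 ≤ Gg x := by
  have a := Gg_ge4 h0 (by linarith)
  have b := Ph_le (x := x) (by linarith) (by linarith)
  have c := Ph_nonneg (x := x) (by linarith) (by linarith)
  have : Ph x ≤ 0.6932 * x ^ 2 :=
    b.trans (mul_le_mul_of_nonneg_right (by linarith [l2hi]) (sq_nonneg x))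
  have := pow_le_pow_left₀ c this 2
  have : 0 ≤ x ^ 4 := by positivity
  nlinarith

lemma Gg_ge2 {x : ℝ} (h0 : 0 ≤ x) (h : x < 1) : 2 * Ph x - x ^ 2 ≤ Gg x := by
  have := mono_of_deriv' (f := fun s => Gg s - 2 * Ph s + s ^ 2)
    (f' := fun s => s / (1 - s ^ 2) - At s - 2 * At s + 2 * s) h0 (fun s hs => by
      have := ((hd_Gg (by linarith [hs.1]) (by linarith [hs.2])).sub
        ((hd_Ph (by linarith [hs.1]) (by linarith [hs.2])).const_mul 2)).add
        ((hasDerivAt_id s).pow 2)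
      refine HasDerivAt.congr_deriv this ?_
      simp) (fun s hs => by
      have h1 : s < 1 := by linarith [hs.2]
      have a := At_le1 hs.1.le h1
      have ho := om_pos (x := s) (by linarith [hs.1]) h1
      have e : s / (1 - s ^ 2) + 2 * s = 3 * (s + s ^ 3 / (3 * (1 - s ^ 2))) := by
        field_simp; ring
      linarith)
  simp at this; linarith

lemma quad_up {a x J : ℝ} (ha : 0 < a) (hax : a ≤ x) (hx : x ≤ 1 / 4) (hJ : 0 ≤ J) :
    Gg x + Ll x * (Ph a + J - Ph x) ≤ Gg a + 1.44 * Ph a * J + 0.72 * J ^ 2 := by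
  have x0 : 0 < x := by linarith
  rcases le_total (Ll x) (1.44 * Ph a) with h | h
  · have := tangent ha.le (by linarith) x0 (by linarith)
    nlinarith [mul_le_mul_of_nonneg_right h hJ, sq_nonneg J]
  · have hc : ContinuousOn Ll (Icc a x) := fun s hs =>
      (hd_Ll (by linarith [hs.1]) (by linarith [hs.2])).continuousAt.continuousWithinAt
    obtain ⟨y, hy, ey⟩ := intermediate_value_Icc hax hc
      (show 1.44 * Ph a ∈ Icc (Ll a) (Ll x) from ⟨Ll_le_Ph ha (by linarith), h⟩)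
    have y0 : 0 < y := by linarith [hy.1]
    have t := tangent ha.le (by linarith) y0 (by linarith [hy.2])
    have := mono_of_deriv'
      (f := fun s => 2.88 * (Ll s * (Ph s - Ph a) - Gg s) - (Ll s - 1.44 * Ph a) ^ 2)
      (f' := fun s => ((1 + s ^ 2) * At s - s) / ((1 - s ^ 2) * At s) ^ 2 *
        (2.88 * Ph s - 2 * Ll s))
      hy.2 (fun s hs => by
        have s0 : 0 < s := by linarith [hs.1]
        have s1 : s < 1 := by linarith [hs.2]
        have := ((((hd_Ll s0 s1).mul ((hd_Ph (by linarith) s1).sub_const (Ph a))).sub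
          (hd_Gg (by linarith) s1)).const_mul 2.88).sub
          (((hd_Ll s0 s1).sub_const (1.44 * Ph a)).pow 2)
        refine HasDerivAt.congr_deriv this ?_
        rw [Ll_mul s0 s1]
        simp only [Nat.cast_ofNat]; ring) (fun s hs => by
        have s0 : 0 < s := by linarith [hs.1]
        have s1 : s < 1 := by linarith [hs.2]
        have := At_ge1 s0.le s1
        have := Ll_le_Ph s0 (by linarith [hs.2])
        apply mul_nonneg (div_nonneg _ (sq_nonneg _)) (by linarith)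
        nlinarith [sq_nonneg s])
    simp only [ey] at this t
    nlinarith [sq_nonneg (Ll x - 1.44 * Ph a - 1.44 * J)]

lemma s1_step {x K R I J X η : ℝ} (hx0 : 0 < x) (hx : x ≤ 1 / 4)
    (hK : ∀ z, 0 < z → z < 1 → Gg z + Ll z * (J - Ph z) ≤ K) (K0 : 0 ≤ K)
    (K2 : 2 * J - 2 * η ≤ K) (J0 : 0 ≤ J)
    (hR : ∀ z, 0 < z → z ≤ 1 / 4 → Gg z + Ll z * (I - Ph z) ≤ R) (R0 : 0 ≤ R)
    (X0 : 0 ≤ X) (hX : η * (I - X) ≤ X) (η0 : 0 ≤ η) :
    Gg x + Ll x * (I + J - Ph x) ≤ K + 2 * X + R := by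
  have x1 : x < 1 := by linarith
  have L0 := Ll_nonneg hx0 x1
  have L1 : Ll x ≤ 0.045 := by have := Ll_le_q hx0 hx; nlinarith
  have L2 := Ll_le_Ph hx0 hx
  have a := hK x hx0 x1
  have b := hR x hx0 hx
  rcases le_or_gt (Ll x * I) (2 * X) with c1 | c1
  · linarith
  rcases le_or_gt (Ll x * J) K with c2 | c2
  · linarith
  have I0 : 0 < I := by
    by_contra hn
    have := mul_nonpos_of_nonneg_of_nonpos L0 (not_lt.1 hn); linarith
  have c3 : 2 * X ≤ 0.045 * I := by nlinarith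
  have c4 : 1.955 * J ≤ 2 * η := by nlinarith
  have c5 : 1.9 * (I * J) ≤ 2 * X := by
    have : η * (0.9775 * I) ≤ η * (I - X) := mul_le_mul_of_nonneg_left (by linarith) η0
    nlinarith [mul_le_mul_of_nonneg_right c4 I0.le, mul_nonneg I0.le J0]
  have IJ := mul_nonneg I0.le J0
  rcases le_or_gt (Ph x) I with c6 | c6
  · have : Ll x * J ≤ 1.44 * I * J := mul_le_mul_of_nonneg_right (by linarith) J0
    linarith
  rcases le_or_gt (Ph x) J with c7 | c7
  · have : Ll x * I ≤ 1.44 * J * I := mul_le_mul_of_nonneg_right (by linarith) I0.le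
    linarith
  have J1 : 0 < J := by
    rcases J0.eq_or_lt with h | h
    · rw [← h] at c2; linarith
    · exact h
  obtain ⟨s, s0, s1, es⟩ := exists_Ph hx0.le I0 c6
  obtain ⟨t, t0, t1, et⟩ := exists_Ph hx0.le J1 c7
  have r1 := hR s s0 (by linarith)
  have k1 := hK t t0 (by linarith)
  have g1 := Gg_ge_sq s0.le (by linarith)
  have g2 := Gg_ge_sq t0.le (by linarith)
  have q1 := quad_up s0 s1.le hx J0
  have q2 := quad_up t0 t1.le hx I0.le
  rw [es] at r1 g1 q1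
  rw [et] at k1 g2 q2
  rcases le_total I J with c | c
  · nlinarith [mul_le_mul_of_nonneg_left c I0.le]
  · nlinarith [mul_le_mul_of_nonneg_left c J0]

/-- the three entropy-production bounds for a function with mean `μ`, mean entropy `e` -/
structure Inv (D μ e : ℝ) : Prop where
  nn : 0 ≤ D - 2 * (Hh μ - e)
  t8 : ∀ x, 0 < x → x < 1 → (1 - μ ^ 2) * gam x - Ll x * e ≤ D - 2 * (Hh μ - e)
  s1 : ∀ x, 0 < x → x ≤ 1 / 4 → Gg x + Ll x * (Hh μ - e - Ph x) ≤ D - 2 * (Hh μ - e)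

lemma gam_le {x : ℝ} (h0 : 0 < x) (h : x < 1) : gam x ≤ Ll x * log 2 := by
  have := tangent le_rfl one_pos h0 h
  simp only [Ph_zero, Gg_zero] at this
  unfold gam Hh; linarith

lemma inv_zero {μ : ℝ} (h0 : -1 < μ) (h : μ < 1) : Inv 0 μ (Hh μ) := by
  refine ⟨by simp, fun x a b => ?_, fun x a b => ?_⟩
  · have := mul_le_mul_of_nonneg_left (gam_le a b) (om_pos h0 h).le
    have := mul_le_mul_of_nonneg_left (Hh_ge h0.le h.le) (Ll_nonneg a b)
    linarith
  · have := gam_le a (by linarith)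
    unfold gam Hh at *; linarith

lemma JK_scale {μ d : ℝ} (hd : 0 < d) (h1 : -1 < μ - d) (h2 : μ + d < 1) :
    ∃ m, 0 ≤ m ∧ m < d / (1 - μ ^ 2) ∧ d / (1 - μ ^ 2) + m < 1 ∧
      JJ μ d = (1 - μ ^ 2) * (Ph (d / (1 - μ ^ 2)) + vv (d / (1 - μ ^ 2)) m) ∧
      KK μ d = (1 - μ ^ 2) * (d / (1 - μ ^ 2) * ((Gg (d / (1 - μ ^ 2) + m) / (d / (1 - μ ^ 2) + m) +
        Gg (d / (1 - μ ^ 2) - m) / (d / (1 - μ ^ 2) - m)) / 2)) := by
  have key : ∀ μ : ℝ, 0 ≤ μ → μ + d < 1 →
      ∃ m, 0 ≤ m ∧ m < d / (1 - μ ^ 2) ∧ d / (1 - μ ^ 2) + m < 1 ∧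
      JJ μ d = (1 - μ ^ 2) * (Ph (d / (1 - μ ^ 2)) + vv (d / (1 - μ ^ 2)) m) ∧
      KK μ d = (1 - μ ^ 2) * (d / (1 - μ ^ 2) * ((Gg (d / (1 - μ ^ 2) + m) / (d / (1 - μ ^ 2) + m) +
        Gg (d / (1 - μ ^ 2) - m) / (d / (1 - μ ^ 2) - m)) / 2)) := by
    intro μ m0 h2
    have p1 : 0 < 1 + μ := by linarith
    have p2 : 0 < 1 - μ := by linarith
    have ew : 1 - μ ^ 2 = (1 + μ) * (1 - μ) := by ring
    have e1 : d / (1 - μ ^ 2) + d / (1 - μ ^ 2) * μ = d / (1 - μ) := by rw [ew]; field_simp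
    have e2 : d / (1 - μ ^ 2) - d / (1 - μ ^ 2) * μ = d / (1 + μ) := by rw [ew]; field_simp
    have q : 0 < d / (1 - μ ^ 2) := by rw [ew]; positivity
    refine ⟨d / (1 - μ ^ 2) * μ, by positivity, by nlinarith, ?_, ?_, ?_⟩
    · rw [e1, div_lt_one p2]; linarith
    · unfold vv JJ ph1; rw [e1, e2, ew]; field_simp; ring
    · unfold KK; rw [e1, e2, ew]; field_simp; ring
  rcases le_total 0 μ with h | h
  · exact key μ h h2
  · have := key (-μ) (by linarith) (by linarith)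
    have eJ : JJ (-μ) d = JJ μ d := by unfold JJ; rw [sub_neg_eq_add, ← sub_eq_add_neg]; ring
    have eK : KK (-μ) d = KK μ d := by unfold KK; rw [sub_neg_eq_add, ← sub_eq_add_neg]; ring
    rwa [neg_sq, eJ, eK] at this

lemma t8_step {w d x e Ek X J K R : ℝ} (w0 : 0 < w) (w1 : w ≤ 1) (hd : 0 < d) (m : ℝ)
    (hm : 0 ≤ m) (m1 : m < d / w) (m2 : d / w + m < 1) (eJ : J = w * (Ph (d / w) + vv (d / w) m))
    (eK : K = w * (d / w * ((Gg (d / w + m) / (d / w + m) + Gg (d / w - m) / (d / w - m)) / 2)))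
    (he : 0 < e) (f1 : K + 2 * X ≤ Ek - 2 * J) (X0 : 0 ≤ X)
    (f2 : (d / w) ^ 2 / 2 * (w * log 2 - e - J - X) ≤ log 2 * X)
    (f4 : ∀ y, 0 < y → y < 1 → kk y * d ≤ Ek + al y * e) (R0 : 0 ≤ R)
    (hR : ∀ z, 0 < z → z < 1 → (w - d ^ 2) * gam z - Ll z * e ≤ R) (x0 : 0 < x) (x1 : x < 1) :
    w * gam x - Ll x * e ≤ Ek - 2 * J + R := by
  obtain ⟨D, hD⟩ : ∃ D, D = d / w := ⟨_, rfl⟩
  rw [← hD] at m1 m2 eJ eK f2
  have ed : d = w * D := by rw [hD]; field_simp
  have D0 : 0 < D := by linarith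
  have D1 : D < 1 := by linarith
  have v0 := V1 hm m1 m2
  have v2 := mul_le_mul_of_nonneg_left (V2 hm m1 m2) w0.le
  rw [← eK] at v2
  have oD := om_pos (by linarith) D1
  have g0 := Gg_nonneg D0.le D1
  have kv : 0 ≤ w * (2 / (1 - D ^ 2) * vv D m) := by positivity
  have L0 := Ll_nonneg x0 x1
  rcases le_or_gt (w * log 2) e with c | c
  · have := mul_le_mul_of_nonneg_left (gam_le x0 x1) w0.le
    have := mul_le_mul_of_nonneg_left c L0
    have := mul_nonneg w0.le g0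
    linarith
  obtain ⟨E, hE⟩ : ∃ E, e = w * E := ⟨e / w, by field_simp⟩
  have E0 : 0 < E := (mul_pos_iff_of_pos_left w0).1 (hE ▸ he)
  have E1 : E < log 2 := lt_of_mul_lt_mul_left (hE ▸ c) w0.le
  obtain ⟨y, y0, y1, ey⟩ := exists_Ph (c := log 2 - E) zero_le_one (by linarith)
    (by rw [Ph_one]; linarith)
  have eH : Hh y = E := by unfold Hh; linarith
  have tg : w * gam x - Ll x * e ≤ w * Gg y := by
    have := mul_le_mul_of_nonneg_left (tangent y0.le y1 x0 x1) w0.le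
    rw [hE, ← eH]; unfold gam Hh; linarith
  refine tg.trans ?_
  rcases le_or_gt y D with c2 | c2
  · have := mul_le_mul_of_nonneg_left (Gg_mono y0.le c2 D1) w0.le
    linarith
  obtain ⟨Q, hQ⟩ : ∃ Q, Ek - 2 * J = w * Q := ⟨(Ek - 2 * J) / w, by field_simp⟩
  have H : Hyp D y Q (vv D m) := by
    refine ⟨fun z z0 z1 => le_of_mul_le_mul_left ?_ w0, fun s s0 s1 => le_of_mul_le_mul_left ?_ w0,
      v0, ?_, fun s s0 s1 => V4 hm m1 m2 (by linarith) s1, V3 hm m1 m2⟩
    · have := f4 z z0 z1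
      rw [ed, hE, ← eH] at this
      linarith
    · have eT : w * (Ph y - Ph D - vv D m) = w * log 2 - e - J := by rw [ey, hE, eJ]; ring
      have : s * (w * log 2 - e - J) ≤ 2 * X := by
        rcases le_total (w * log 2 - e - J) 0 with c3 | c3
        · have := mul_nonpos_of_nonneg_of_nonpos s0 c3; linarith
        · refine (mul_le_mul_of_nonneg_right s1 c3).trans ?_
          have := l2pos
          unfold sg
          rw [div_mul_eq_mul_div, div_le_iff₀ (by positivity)]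
          linarith
      rw [← eT] at this
      linarith
    · have := V4 hm m1 m2 m2.le le_rfl
      rw [Ph_one] at this; simpa using this
  rcases good_all D0 c2 y1 Q _ H with k | ⟨z, z0, z1, k⟩
  · have := mul_le_mul_of_nonneg_left k w0.le
    linarith
  · have k1 := mul_le_mul_of_nonneg_left k w0.le
    have k2 := hR z z0 z1
    have k3 : w * (1 - D ^ 2) * gam z ≤ (w - d ^ 2) * gam z := by
      refine mul_le_mul_of_nonneg_right ?_ (gam_nonneg z0 z1)
      rw [ed]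
      nlinarith [mul_le_mul_of_nonneg_left w1 (show 0 ≤ w * D ^ 2 by positivity)]
    rw [hE, ← eH] at k2
    linarith

end Vale.Agent.P322
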