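import Vale.Agent.P322.Fun

/-! Second differences of `Ph s / s` and `At`. -/

namespace Vale.Agent.P322
open Real Set

noncomputable def ph1 (s : ℝ) : ℝ := Ph s / s
noncomputable def lc (s : ℝ) : ℝ := Dm s / s ^ 2
noncomputable def Jh (d : ℝ) : ℝ := d * log 2 / 2 + (ph1 (2 * d - 1) + Ph (2 * d - 1)) / 4

lemma hd_ph1 {s : ℝ} (h0 : 0 < s) (h : s < 1) : HasDerivAt ph1 (lc s) s := by
  have := (hd_Ph (by linarith) h).div (hasDerivAt_id s) (by simp; linarith)
  refine HasDerivAt.congr_deriv this ?_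
  simp only [id, lc, Ph_eq]; field_simp; ring

lemma hd_lc {s : ℝ} (h0 : 0 < s) (h : s < 1) :
    HasDerivAt lc ((s ^ 2 / (1 - s ^ 2) - 2 * Dm s) / s ^ 3) s := by
  have ho := om_pos (by linarith) h
  have := (hd_Dm (by linarith) h).div ((hasDerivAt_id s).pow 2) (by simp; linarith)
  refine HasDerivAt.congr_deriv this ?_
  simp only [id, Pi.pow_apply]; field_simp; ring

lemma Dm_log {s : ℝ} (h0 : 0 ≤ s) (h : s < 1) : 2 * Dm s = log (1 / (1 - s ^ 2)) := by
  rw [Dm_eq (by linarith) h, one_div, log_inv]; ring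

lemma lc_mono {a b : ℝ} (ha : 0 < a) (hab : a ≤ b) (hb : b < 1) : lc a ≤ lc b :=
  mono_of_deriv' hab (fun s hs => hd_lc (by linarith [hs.1]) (by linarith [hs.2]))
    (fun s hs => by
      have h0 : 0 < s := by linarith [hs.1]
      have h1 : s < 1 := by linarith [hs.2]
      have ho := om_pos (by linarith) h1
      apply div_nonneg _ (by positivity)
      rw [Dm_log h0.le h1]
      have := log_le_sub_one_of_pos (one_div_pos.2 ho)
      have e : 1 / (1 - s ^ 2) - 1 = s ^ 2 / (1 - s ^ 2) := by field_simp; ring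
      linarith)

lemma ph1_tan {x z : ℝ} (hx0 : 0 < x) (hx : x < 1) (hz0 : 0 < z) (hz : z < 1) :
    ph1 z + lc z * (x - z) ≤ ph1 x := by
  have := le_of_deriv_sign (f := fun s => ph1 s - lc z * s)
    (f' := fun s => lc s - lc z) (z := z) (x := x)
    (fun s hs => by
      have h := mem_of_mm (a := 0) (b := 1) ⟨hz0, hz⟩ ⟨hx0, hx⟩ hs
      have := (hd_ph1 h.1 h.2).sub ((hasDerivAt_id s).const_mul (lc z))
      refine HasDerivAt.congr_deriv this ?_
      simp)
    (fun s h1 h2 => by have := lc_mono (by linarith) h2.le hz; linarith)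
    (fun s h1 h2 => by have := lc_mono hz0 h1.le (by linarith); linarith)
  linarith

lemma lc_step {a b : ℝ} (ha : 0 < a) (hab : a ≤ b) (hb : b < 1) :
    lc b - lc a ≤ (log (1 / (1 - b ^ 2) + 1) - log (1 / (1 - a ^ 2) + 1)) / 2 := by
  have := mono_of_deriv' (f := fun s => log (1 / (1 - s ^ 2) + 1) / 2 - lc s)
    (f' := fun s => s / ((1 - s ^ 2) * (2 - s ^ 2)) -
      (s ^ 2 / (1 - s ^ 2) - 2 * Dm s) / s ^ 3) hab (fun s hs => by
      have h0 : 0 < s := by linarith [hs.1]
      have h1 : s < 1 := by linarith [hs.2]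
      have ho := om_pos (by linarith) h1
      have hz : 1 / (1 - s ^ 2) + 1 ≠ 0 := by positivity
      have := (((((hasDerivAt_const s (1:ℝ)).div (((hasDerivAt_id s).pow 2).const_sub 1)
        (by simp; linarith)).add_const 1).log (by simpa using hz)).div_const 2).sub (hd_lc h0 h1)
      refine HasDerivAt.congr_deriv this ?_
      have h2 : 2 - s ^ 2 ≠ 0 := by nlinarith
      have e : 1 / (1 - s ^ 2) + 1 = (2 - s ^ 2) / (1 - s ^ 2) := by field_simp; ring
      simp only [id, Pi.pow_apply, Pi.div_apply]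
      rw [e]; field_simp; ring) (fun s hs => by
      have h0 : 0 < s := by linarith [hs.1]
      have h1 : s < 1 := by linarith [hs.2]
      have ho := om_pos (by linarith) h1
      have h2 : 0 < 2 - s ^ 2 := by nlinarith
      have h3 := le_log_one_add_of_nonneg (x := s ^ 2 / (1 - s ^ 2)) (by positivity)
      have e1 : 1 + s ^ 2 / (1 - s ^ 2) = 1 / (1 - s ^ 2) := by field_simp; ring
      have e2 : 2 * (s ^ 2 / (1 - s ^ 2)) / (s ^ 2 / (1 - s ^ 2) + 2) = 2 * s ^ 2 / (2 - s ^ 2) := by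
        have : s ^ 2 / (1 - s ^ 2) + 2 = (2 - s ^ 2) / (1 - s ^ 2) := by field_simp; ring
        rw [this]; field_simp
      rw [e1, e2, ← Dm_log h0.le h1] at h3
      have e3 : s / ((1 - s ^ 2) * (2 - s ^ 2)) - (s ^ 2 / (1 - s ^ 2) - 2 * Dm s) / s ^ 3 =
          (2 * Dm s - 2 * s ^ 2 / (2 - s ^ 2)) / s ^ 3 := by field_simp; ring
      rw [e3]; apply div_nonneg _ (by positivity); linarith)
  linarith

lemma log_ratio_le {x y c : ℝ} (hc : 0 < c) (hx : 0 < x) (hxy : x ≤ y) (h : c ^ 2 ≤ x * y) :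
    c * (log y - log x) ≤ y - x := by
  obtain ⟨a, ha, ea⟩ : ∃ p : ℝ, 0 < p ∧ p ^ 2 = x := ⟨√x, sqrt_pos.2 hx, sq_sqrt hx.le⟩
  obtain ⟨b, hb, eb⟩ : ∃ p : ℝ, 0 < p ∧ p ^ 2 = y :=
    ⟨√y, sqrt_pos.2 (by linarith), sq_sqrt (by linarith)⟩
  subst ea eb
  have hab : a ≤ b := le_of_sq_le_sq hxy hb.le
  have hcab : c ≤ a * b := le_of_sq_le_sq (by rw [mul_pow]; exact h) (by positivity)
  have h1 := log_le_half (t := b / a) (by rw [le_div_iff₀ ha]; linarith)
  rw [log_div hb.ne' ha.ne'] at h1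
  have h2 : 0 ≤ log b - log a := by have := log_le_log ha hab; linarith
  have e : (b / a - 1 / (b / a)) / 2 * (a * b) = (b ^ 2 - a ^ 2) / 2 := by field_simp
  rw [log_pow, log_pow]; push_cast
  have h3 := mul_le_mul_of_nonneg_right h1 (show 0 ≤ a * b by positivity)
  nlinarith

lemma lc_key {d r : ℝ} (hr : 0 ≤ r) (h0 : r < d) (h1 : d + r < 1) :
    (2 + 2 / (1 - d ^ 2)) * (lc (d + r) - lc (d - r)) ≤
      1 / (1 - (d + r) ^ 2) - 1 / (1 - (d - r) ^ 2) := by
  have o1 := om_pos (x := d + r) (by linarith) h1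
  have o2 := om_pos (x := d - r) (by linarith) (by linarith)
  have o3 := om_pos (x := d) (by linarith) (by linarith)
  have hs := lc_step (a := d - r) (b := d + r) (by linarith) (by linarith) h1
  set zb := 1 / (1 - (d + r) ^ 2) with hzb
  set za := 1 / (1 - (d - r) ^ 2) with hza
  set z := 1 / (1 - d ^ 2) with hz
  have pa : 0 < za := by positivity
  have pb : 0 < zb := by positivity
  have pz : 0 < z := by positivity
  have hab : za ≤ zb := one_div_le_one_div_of_le o1 (by nlinarith)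
  have hp : z ^ 2 ≤ za * zb := by
    rw [hz, hza, hzb, div_pow, div_mul_div_comm, one_pow, one_mul]
    apply one_div_le_one_div_of_le (by positivity)
    have : (1 - d ^ 2) ^ 2 - (1 - (d - r) ^ 2) * (1 - (d + r) ^ 2) =
        r ^ 2 * (2 + 2 * d ^ 2 - r ^ 2) := by ring
    have : 0 ≤ r ^ 2 * (2 + 2 * d ^ 2 - r ^ 2) := mul_nonneg (sq_nonneg _) (by nlinarith)
    linarith
  have hsum : 2 * z ≤ za + zb := le_of_sq_le_sq (by nlinarith [sq_nonneg (za - zb)]) (by linarith)
  have hk := log_ratio_le (x := za + 1) (y := zb + 1) (c := z + 1) (by linarith) (by linarith)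
    (by linarith) (by nlinarith)
  have e : 2 / (1 - d ^ 2) = 2 * z := by rw [hz]; ring
  rw [e]
  nlinarith [mul_le_mul_of_nonneg_left hs (show 0 ≤ 2 + 2 * z by linarith)]

noncomputable def vv (d m : ℝ) : ℝ := d * ((ph1 (d + m) + ph1 (d - m)) / 2) - Ph d

lemma hd_pm {F F' : ℝ → ℝ} {d r : ℝ} (h1 : HasDerivAt F (F' (d + r)) (d + r))
    (h2 : HasDerivAt F (F' (d - r)) (d - r)) :
    HasDerivAt (fun s => F (d + s) + F (d - s)) (F' (d + r) - F' (d - r)) r := by
  have a1 := h1.comp r ((hasDerivAt_id r).const_add d)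
  have a2 := h2.comp r ((hasDerivAt_id r).const_sub d)
  have := a1.add a2
  refine HasDerivAt.congr_deriv this ?_
  ring

section
variable {d m : ℝ} (hm : 0 ≤ m) (h0 : m < d) (h1 : d + m < 1)
include hm h0 h1

lemma V1 : 0 ≤ vv d m := by
  have hd : 0 < d := by linarith
  have a1 := ph1_tan (x := d + m) (z := d) (by linarith) h1 hd (by linarith)
  have a2 := ph1_tan (x := d - m) (z := d) (by linarith) (by linarith) hd (by linarith)
  have e : Ph d = d * ph1 d := by unfold ph1; field_simp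
  unfold vv; rw [e]; nlinarith

lemma V2 : Gg d + 2 / (1 - d ^ 2) * vv d m ≤
    d * ((Gg (d + m) / (d + m) + Gg (d - m) / (d - m)) / 2) := by
  have hd : 0 < d := by linarith
  have := mono_of_deriv'
    (f := fun s => (At (d + s) + At (d - s)) - (2 + 2 / (1 - d ^ 2)) * (ph1 (d + s) + ph1 (d - s)))
    (f' := fun s => (1 / (1 - (d + s) ^ 2) - 1 / (1 - (d - s) ^ 2)) -
      (2 + 2 / (1 - d ^ 2)) * (lc (d + s) - lc (d - s))) hm (fun s hs => by
      have := hs.1; have := hs.2
      exact (hd_pm (F' := fun s => 1 / (1 - s ^ 2)) (hd_At (by linarith) (by linarith))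
        (hd_At (by linarith) (by linarith))).sub
        ((hd_pm (hd_ph1 (by linarith) (by linarith))
          (hd_ph1 (by linarith) (by linarith))).const_mul _))
    (fun s hs => by
      have := lc_key (d := d) (r := s) hs.1.le (by linarith [hs.2]) (by linarith [hs.2])
      linarith)
  have e : Ph d = d * ph1 d := by unfold ph1; field_simp
  have e1 : ∀ s : ℝ, 0 < s → Gg s / s = At s - 2 * ph1 s := fun s hs => by
    unfold Gg ph1; field_simp
  have e2 : Gg d = d * At d - 2 * (d * ph1 d) := by rw [← e]; rfl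
  rw [e1 _ (by linarith), e1 _ (by linarith), e2]
  unfold vv; rw [e]
  simp only [add_zero, sub_zero] at this
  nlinarith [mul_le_mul_of_nonneg_left this hd.le]

lemma V3 (hd : 1 / 2 < d) : Ph d + vv d m ≤ Jh d := by
  have hc : ContinuousOn (fun s => ph1 (d + s) + ph1 (d - s)) (Icc m (1 - d)) := by
    apply ContinuousOn.add
    · exact (continuous_Ph.comp (by fun_prop)).continuousOn.div (by fun_prop)
        (fun s hs => by have := hs.1; linarith)
    · exact (continuous_Ph.comp (by fun_prop)).continuousOn.div (by fun_prop)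
        (fun s hs => by have := hs.2; linarith)
  have := mono_of_deriv (f' := fun s => lc (d + s) - lc (d - s)) (show m ≤ 1 - d by linarith) hc
    (fun s hs => by
      have := hs.1; have := hs.2
      exact hd_pm (hd_ph1 (by linarith) (by linarith)) (hd_ph1 (by linarith) (by linarith)))
    (fun s hs => by
      have := hs.1; have := hs.2
      have := lc_mono (a := d - s) (b := d + s) (by linarith) (by linarith) (by linarith)
      linarith)
  rw [show d + (1 - d) = 1 by ring, show d - (1 - d) = 2 * d - 1 by ring] at this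
  have e1 : ph1 1 = log 2 := by unfold ph1; rw [Ph_one]; simp
  have e2 : Ph (2 * d - 1) = (2 * d - 1) * ph1 (2 * d - 1) := by
    have : 2 * d - 1 ≠ 0 := by linarith
    unfold ph1; field_simp
  unfold vv Jh; rw [e2]; rw [e1] at this
  nlinarith [mul_le_mul_of_nonneg_left this (show 0 ≤ d by linarith)]

lemma V4 {s : ℝ} (hs : d + m ≤ s) (hs1 : s ≤ 1) : Ph d + vv d m ≤ d ^ 2 * (Ph s / s ^ 2) := by
  have key : ∀ b, 0 < b → b ≤ s → ph1 b ≤ b * (Ph s / s ^ 2) := fun b hb hbs => by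
    have := Ph_le_of hb.le hbs (by linarith) hs1
    unfold ph1; rw [div_le_iff₀ hb]; nlinarith
  have a1 := key (d + m) (by linarith) hs
  have a2 := key (d - m) (by linarith) (by linarith)
  unfold vv
  nlinarith [mul_le_mul_of_nonneg_left (add_le_add a1 a2) (show 0 ≤ d by linarith)]

end

/-- `sg d`: synergy slope -/
noncomputable def sg (d : ℝ) : ℝ := d ^ 2 / (log 2 + d ^ 2 / 2)

/-- what is known about the scaled gain `Q` and the asymmetry defect `v` -/
structure Hyp (d x Q v : ℝ) : Prop where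
  hA : ∀ y, 0 < y → y < 1 → d * kk y - al y * Hh x - 2 * Ph d - 2 * v ≤ Q
  hB : ∀ s, 0 ≤ s → s ≤ sg d → Gg d + 2 / (1 - d ^ 2) * v + s * (Ph x - Ph d - v) ≤ Q
  v0 : 0 ≤ v
  v1 : Ph d + v ≤ d ^ 2 * log 2
  v2 : ∀ s, 2 * d ≤ s → s ≤ 1 → Ph d + v ≤ d ^ 2 * (Ph s / s ^ 2)
  v3 : 1 / 2 < d → Ph d + v ≤ Jh d

def Good (d x : ℝ) : Prop := ∀ Q v, Hyp d x Q v →
  Gg x ≤ Q ∨ ∃ z, 0 < z ∧ z < 1 ∧ Gg x + Ll z * Hh x ≤ Q + (1 - d ^ 2) * gam z

lemma sg_nonneg (d : ℝ) : 0 ≤ sg d := by have := l2pos; unfold sg; positivity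

lemma sg_mono {a b : ℝ} (ha : 0 ≤ a) (hab : a ≤ b) : sg a ≤ sg b := by
  have := l2pos
  have h : a ^ 2 ≤ b ^ 2 := pow_le_pow_left₀ ha hab 2
  unfold sg
  rw [div_le_div_iff₀ (by positivity) (by positivity)]; nlinarith

lemma sg_le (d : ℝ) : sg d ≤ 2 := by
  have := l2pos
  unfold sg; rw [div_le_iff₀ (by positivity)]; linarith

lemma le_of_tan {Fa Fb Fx a b x s c : ℝ} (hax : a ≤ x) (hxb : x ≤ b)
    (ha : Fx + s * (a - x) ≤ Fa) (hb : Fx + s * (b - x) ≤ Fb) (h1 : Fa ≤ c) (h2 : Fb ≤ c) :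
    Fx ≤ c := by
  rcases le_total s 0 with h | h
  · nlinarith
  · nlinarith

end Vale.Agent.P322
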