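import Vale.Agent.P322.Vv

/-! Analytic zones: small `d`. -/

namespace Vale.Agent.P322
open Real Set

lemma Gg_le4 {x : ℝ} (h0 : 0 ≤ x) (h : x < 1) : Gg x ≤ x ^ 4 / 6 + x ^ 6 / (1 - x ^ 2) := by
  have a := Dm_le2 h0 h
  have b := mul_le_mul_of_nonneg_left (At_ge2 h0 h) h0
  rw [Gg_eq]; nlinarith

lemma Gg_ge4 {x : ℝ} (h0 : 0 ≤ x) (h : x ≤ 1 / 3) : x ^ 4 / 6 ≤ Gg x := by
  have h1 : x < 1 := by linarith
  have a := Dm_ge3 h0 h1
  have b := mul_le_mul_of_nonneg_left (At_le3 h0 h1) h0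
  have ho := om_pos (by linarith) h1
  have c : x ^ 7 / (1 - x ^ 2) ≤ 2 / 15 * x ^ 5 := by
    rw [div_le_iff₀ ho]
    have : x ^ 2 ≤ 1 / 9 := by nlinarith
    have h5 : 0 ≤ x ^ 5 := by positivity
    nlinarith
  have := mul_le_mul_of_nonneg_left c h0
  rw [Gg_eq]; nlinarith

lemma Ll_le {x : ℝ} (h0 : 0 < x) (h : x < 1) :
    Ll x * (1 - 2 * x ^ 2 / 3 - x ^ 4 / 3) ≤ 2 * x ^ 2 / 3 + x ^ 4 / 3 := by
  have ho := om_pos (by linarith) h
  have a := At_ge2 h0.le h
  have hp := At_pos h0 h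
  have e : 1 - 2 * x ^ 2 / 3 - x ^ 4 / 3 = (1 - x ^ 2) * (1 + x ^ 2 / 3) := by ring
  have : (Ll x + 1) * (1 - 2 * x ^ 2 / 3 - x ^ 4 / 3) ≤ 1 := by
    rw [e]; unfold Ll
    rw [sub_add_cancel, div_mul_eq_mul_div, div_le_one (by positivity)]
    nlinarith
  linarith

lemma sg_lo {d : ℝ} (h : d ≤ 1 / 20) (h0 : 0 ≤ d) : d ^ 2 ≤ 0.6945 * sg d := by
  have := l2hi
  have := l2pos
  have hq : d ^ 2 ≤ 1 / 400 := by nlinarith
  unfold sg
  rw [← mul_div_assoc, le_div_iff₀ (by positivity)]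
  nlinarith [sq_nonneg d]

lemma Hyp.lowB {d x Q v : ℝ} (h : Hyp d x Q v) (h0 : 0 ≤ d) (h1 : d < 1) :
    Gg d + sg d * (Ph x - Ph d) ≤ Q := by
  have a := h.hB (sg d) (sg_nonneg d) le_rfl
  have ho := om_pos (by linarith) h1
  have b : 2 ≤ 2 / (1 - d ^ 2) := by rw [le_div_iff₀ ho]; nlinarith [sq_nonneg d]
  have := sg_le d
  have := h.v0
  nlinarith

lemma good_of_sq {d x : ℝ} (hx0 : 0 < x) (hx : x < 1)
    (h : ∀ Q v, Hyp d x Q v → d ^ 2 * gam x ≤ Q) : Good d x := by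
  intro Q v k
  right
  refine ⟨x, hx0, hx, ?_⟩
  have := h Q v k
  unfold gam at *; linarith

lemma z1a {d x : ℝ} (h0 : 0 < d) (h : d ≤ 1 / 20) (h1 : d ≤ x) (h2 : x ≤ 5 * d / 3) :
    Good d x := by
  intro Q v k
  left
  have a := k.lowB h0.le (by linarith)
  have hb : 5 * d / 3 < 1 := by linarith
  have b := Gg_le4 (x := 5 * d / 3) (by linarith) hb
  have c := Gg_ge4 h0.le (by linarith)
  have e := Ph_sub_sq_mono (a := d) (b := 5 * d / 3) h0.le (by linarith) hb.le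
  have f := sg_lo h h0.le
  have hq : d ^ 2 ≤ 1 / 400 := by nlinarith
  have h4 : 0 ≤ d ^ 4 := by positivity
  have g : (5 * d / 3) ^ 6 / (1 - (5 * d / 3) ^ 2) ≤ 0.06 * d ^ 4 := by
    rw [div_le_iff₀ (by nlinarith)]
    nlinarith
  have s0 := sg_nonneg d
  have t : Gg (5 * d / 3) - sg d * Ph (5 * d / 3) ≤ Gg d - sg d * Ph d := by
    have : sg d * (8 / 9 * d ^ 2) ≤ sg d * (Ph (5 * d / 3) - Ph d) :=
      mul_le_mul_of_nonneg_left (by linarith) s0
    have : d ^ 2 * d ^ 2 ≤ 0.6945 * sg d * d ^ 2 := mul_le_mul_of_nonneg_right f (sq_nonneg d)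
    nlinarith
  have := chord h0 h1 h2 hb le_rfl t
  linarith

lemma gam_small {x : ℝ} (h0 : 0 < x) (h : x ≤ 1 / 6) : gam x ≤ 0.49 * x ^ 2 := by
  have h1 : x < 1 := by linarith
  have a := Gg_le4 h0.le h1
  have b := Ll_le h0 h1
  have c := Ll_nonneg h0 h1
  have hq : x ^ 2 ≤ 1 / 36 := by nlinarith
  have q0 : 0 ≤ x ^ 2 := sq_nonneg x
  have e4 : x ^ 4 = x ^ 2 * x ^ 2 := by ring
  have h4 : x ^ 4 ≤ x ^ 2 / 36 := by rw [e4]; nlinarith
  have g : x ^ 6 / (1 - x ^ 2) ≤ 0.001 * x ^ 2 := by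
    rw [div_le_iff₀ (by linarith)]
    have : x ^ 6 = x ^ 2 * x ^ 4 := by ring
    nlinarith
  have l : Ll x ≤ 0.69 * x ^ 2 := by nlinarith
  have := Ph_nonneg (x := x) (by linarith) h1.le
  have := l2hi
  have : Ll x * Hh x ≤ Ll x * 0.6932 := mul_le_mul_of_nonneg_left (by unfold Hh; linarith) c
  unfold gam; nlinarith

lemma z1b {d x : ℝ} (h0 : 0 < d) (h : d ≤ 1 / 20) (h1 : 5 * d / 3 ≤ x) (h2 : x ≤ 1 / 6) :
    Good d x := by
  refine good_of_sq (by linarith) (by linarith) fun Q v k => ?_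
  have a := k.lowB h0.le (by linarith)
  have c := Gg_ge4 h0.le (by linarith)
  have e := Ph_sub_sq_mono (a := d) (b := x) h0.le (by linarith) (by linarith)
  have f := sg_lo h h0.le
  have g := gam_small (x := x) (by linarith) h2
  have s0 := sg_nonneg d
  have hq : 25 / 9 * d ^ 2 ≤ x ^ 2 := by nlinarith
  have q0 := sq_nonneg d
  have t1 : sg d * ((x ^ 2 - d ^ 2) / 2) ≤ sg d * (Ph x - Ph d) :=
    mul_le_mul_of_nonneg_left (by linarith) s0
  have t2 : d ^ 2 * ((x ^ 2 - d ^ 2) / 2) ≤ 0.6945 * sg d * ((x ^ 2 - d ^ 2) / 2) :=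
    mul_le_mul_of_nonneg_right f (by linarith)
  have t3 := mul_le_mul_of_nonneg_left g q0
  have t4 := mul_le_mul_of_nonneg_left hq q0
  nlinarith

lemma z1c {d x : ℝ} (h0 : 0 < d) (h : d ≤ 1 / 20) (hx0 : 0 < x) (hx : x < 1)
    (hn : gam x * 0.6945 + 0.00174 ≤ Ph x) : Good d x := by
  refine good_of_sq hx0 hx fun Q v k => ?_
  have a := k.lowB h0.le (by linarith)
  have c := Gg_nonneg h0.le (show d < 1 by linarith)
  have f := sg_lo h h0.le
  have g := gam_nonneg hx0 hx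
  have s0 := sg_nonneg d
  have hq : d ^ 2 ≤ 1 / 400 := by nlinarith
  have p := Ph_le (x := d) (by linarith) (by linarith)
  have := l2hi
  have := l2pos
  have t1 : sg d * (gam x * 0.6945) ≤ sg d * (Ph x - Ph d) :=
    mul_le_mul_of_nonneg_left (by nlinarith) s0
  have t2 := mul_le_mul_of_nonneg_right f g
  nlinarith

lemma Ph_six : 2 * (Ph 0.6 / 0.6 ^ 2) ≤ 1.076 := by
  have a : log (1 + 0.6) = log 2 - log 1.25 := by
    rw [← log_div (by norm_num) (by norm_num)]; norm_num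
  have b : log (1 - 0.6) = -log 2 - log 1.25 := by
    rw [← log_inv, ← log_div (by norm_num) (by norm_num)]; norm_num
  have c := At_ge1 (x := 1 / 9) (by norm_num) (by norm_num)
  rw [At_eq (by norm_num) (by norm_num), show ((1 : ℝ) + 1 / 9) / (1 - 1 / 9) = 1.25 by norm_num] at c
  have := l2hi
  unfold Ph; rw [a, b]; norm_num at c ⊢; linarith

lemma sinh_scale {t θ : ℝ} (ht : 0 ≤ t) (h0 : 0 ≤ θ) (h1 : θ ≤ 1) :
    sinh (θ * t) ≤ θ * sinh t := by
  have := mono_of_deriv' (f := fun s => θ * sinh s - sinh (θ * s))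
    (f' := fun s => θ * cosh s - cosh (θ * s) * θ) ht (fun s _ =>
      ((hasDerivAt_sinh s).const_mul θ).sub
        (by simpa using ((hasDerivAt_id s).const_mul θ).sinh)) (fun s hs => by
      have : cosh (θ * s) ≤ cosh s := by
        rw [cosh_le_cosh, abs_of_nonneg (mul_nonneg h0 hs.1.le), abs_of_nonneg hs.1.le]
        nlinarith [hs.1]
      nlinarith)
  simp at this; linarith

lemma z2 {d x : ℝ} (h0 : 0 < d) (h : d ≤ 0.3) (hx0 : 0 < x) (hx : x < 1)
    (hn : 0.6 * (gam x + 1.076) ≤ log (1.2 * log 2 / Hh x)) : Good d x := by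
  refine good_of_sq hx0 hx fun Q v k => ?_
  have g := gam_nonneg hx0 hx
  obtain ⟨c, hc⟩ : ∃ c, c = gam x + 1.076 := ⟨_, rfl⟩
  have c0 : 0 < c := by linarith
  rw [← hc] at hn
  have hH := Hh_pos (by linarith) hx
  have l0 := l2pos
  obtain ⟨E, hE⟩ : ∃ E, E = exp (2 * d * c) := ⟨_, rfl⟩
  have E1 : 1 < E := by rw [hE]; exact one_lt_exp_iff.2 (by positivity)
  have y0 : 0 < (E - 1) / (E + 1) := div_pos (by linarith) (by linarith)
  have y1 : (E - 1) / (E + 1) < 1 := by rw [div_lt_one (by linarith)]; linarith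
  have ya : At ((E - 1) / (E + 1)) = d * c := by
    rw [At_eq (by linarith) y1, show (1 + (E - 1) / (E + 1)) / (1 - (E - 1) / (E + 1)) = E by
      field_simp; ring, hE, log_exp]; ring
  have ys : (E - 1) / (E + 1) = (1 - ((E - 1) / (E + 1)) ^ 2) * (sinh (2 * d * c) / 2) := by
    rw [sinh_eq, exp_neg, ← hE]; field_simp; ring
  set y := (E - 1) / (E + 1) with hy
  have s1 := sinh_scale (t := 0.6 * c) (θ := d / 0.3) (by positivity) (by positivity)
    (by rw [div_le_one (by norm_num)]; exact h)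
  rw [show d / 0.3 * (0.6 * c) = 2 * d * c by ring] at s1
  have s2 : sinh (0.6 * c) ≤ 0.6 * log 2 / Hh x := by
    have := (le_log_iff_exp_le (by positivity)).1 hn
    have := exp_pos (-(0.6 * c))
    rw [sinh_eq, show 0.6 * log 2 / Hh x = 1.2 * log 2 / Hh x / 2 by ring]; linarith
  have s3 : Hh x * (sinh (2 * d * c) / 2) ≤ d * log 2 := by
    have := mul_le_mul_of_nonneg_left s2 (show 0 ≤ d / 0.3 by positivity)
    have e : Hh x * (d / 0.3 * (0.6 * log 2 / Hh x) / 2) = d * log 2 := by field_simp; ring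
    rw [← e]; exact mul_le_mul_of_nonneg_left (by linarith) hH.le
  have s4 : Hh x ≤ d * (Hh y / y) := by
    have ho := om_pos (by linarith) y1
    have := Hh_ge (x := y) (by linarith) y1.le
    rw [← mul_div_assoc, le_div_iff₀ y0]
    have t := mul_le_mul_of_nonneg_left s3 ho.le
    have t2 : Hh x * y = (1 - y ^ 2) * (Hh x * (sinh (2 * d * c) / 2)) := by
      conv_lhs => rw [ys]
      ring
    nlinarith
  have a := k.hA y y0 y1
  have b := k.v2 0.6 (by linarith) (by norm_num)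
  have p := mul_le_mul_of_nonneg_left Ph_six (sq_nonneg d)
  have q := mul_le_mul_of_nonneg_left s4 (al_pos y0 y1).le
  have e : d * kk y = d * (d * c) + al y * (d * (Hh y / y)) := by unfold kk; rw [ya]; ring
  rw [e, hc] at a
  nlinarith

lemma Hh_form (x : ℝ) : Hh x = (1 - x) * At x + (log 2 - log (1 + x)) := by
  unfold Hh Ph At; ring

lemma lg_lo {x : ℝ} (h : -1 < x) : (1 - x) / 2 ≤ log 2 - log (1 + x) := by
  have := log_le_sub_one_of_pos (show 0 < (1 + x) / 2 by linarith)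
  rw [log_div (by linarith) (by norm_num)] at this; linarith

lemma lg_hi {x : ℝ} (h : -1 < x) : log 2 - log (1 + x) ≤ (1 - x) / (1 + x) := by
  have h0 : 0 < 1 + x := by linarith
  have := log_le_sub_one_of_pos (show 0 < 2 / (1 + x) by positivity)
  rw [log_div (by norm_num) h0.ne'] at this
  have e : 2 / (1 + x) - 1 = (1 - x) / (1 + x) := by field_simp; ring
  linarith

/-- upper bound for `Hh` near one -/
lemma Hh_up {x b c : ℝ} (hb : 0 ≤ b) (h : b ≤ x) (hx : x < 1) (hc : 1 ≤ c * (1 + b)) :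
    Hh x ≤ (1 - x) * (At x + c) := by
  have a := lg_hi (x := x) (by linarith)
  have c0 : 0 < c := by nlinarith
  have : (1 - x) / (1 + x) ≤ (1 - x) * c := by
    rw [div_le_iff₀ (by linarith)]
    have : 1 ≤ c * (1 + x) := by nlinarith
    nlinarith
  rw [Hh_form]; linarith

lemma At_ge_log {x : ℝ} {n : ℕ} (h0 : -1 < x) (h : x < 1) (hn : 2 ^ n * (1 - x) ≤ 1 + x) :
    n * log 2 / 2 ≤ At x := by
  have : log (2 ^ n) ≤ log ((1 + x) / (1 - x)) :=
    log_le_log (by positivity) (by rw [le_div_iff₀ (by linarith)]; exact hn)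
  rw [log_pow] at this
  rw [At_eq h0 h]; linarith

lemma At_le_log {x : ℝ} {n : ℕ} (h0 : -1 < x) (h : x < 1) (hn : 1 + x ≤ 2 ^ n * (1 - x)) :
    At x ≤ n * log 2 / 2 := by
  have : log ((1 + x) / (1 - x)) ≤ log (2 ^ n) :=
    log_le_log (div_pos (by linarith) (by linarith)) (by rw [div_le_iff₀ (by linarith)]; exact hn)
  rw [log_pow] at this
  rw [At_eq h0 h]; linarith

lemma z2tail {x : ℝ} (h : 0.9 ≤ x) (hx : x < 1) :
    0.6 * (gam x + 1.076) ≤ log (1.2 * log 2 / Hh x) := by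
  have t := At_ge_log (x := x) (n := 4) (by linarith) hx (by norm_num; linarith)
  have l1 := l2lo
  have l2 := l2hi
  push_cast at t
  have t0 : 0 < At x := by linarith
  have hH := Hh_pos (by linarith) hx
  have u := Hh_up (b := 0.9) (c := 0.5264) (by norm_num) h hx (by norm_num)
  have p0 : 0 < 1 - x := by linarith
  have g1 : (Ll x + 1) * Hh x ≤ 0.69 := by
    unfold Ll
    rw [sub_add_cancel, div_mul_eq_mul_div, div_le_iff₀ (mul_pos (om_pos (by linarith) hx) t0)]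
    have a : x * Hh x ≤ x * ((1 - x) * (At x + 0.5264)) :=
      mul_le_mul_of_nonneg_left u (by linarith)
    have b : x * (At x + 0.5264) ≤ 0.69 * ((1 + x) * At x) := by nlinarith
    have := mul_le_mul_of_nonneg_left b p0.le
    nlinarith
  have g2 : gam x ≤ At x - 0.64 := by
    have : (1 - x) * 0.5264 ≤ 0.05264 := by linarith
    unfold gam Gg
    have e : Ph x = log 2 - Hh x := by unfold Hh; ring
    rw [e]; nlinarith
  have a1 : log (Hh x) ≤ log (1 - x) + log (At x + 0.5264) := by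
    rw [← log_mul p0.ne' (by linarith)]; exact log_le_log hH u
  have a2 : log (At x + 0.5264) ≤ log 2 + (At x + 0.5264) / 2 - 1 := by
    have := log_le_sub_one_of_pos (show 0 < (At x + 0.5264) / 2 by linarith)
    rw [log_div (by linarith) (by norm_num)] at this; linarith
  have a3 : log (1 - x) ≤ log 2 - 2 * At x := by
    have := lg_lo (x := x) (by linarith)
    unfold At; linarith
  have a4 : -0.21 ≤ log (1.2 * log 2) := by
    have := one_sub_inv_le_log_of_pos (show 0 < 1.2 * log 2 by linarith)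
    have : (1.2 * log 2)⁻¹ ≤ 1.21 := by
      rw [inv_le_comm₀ (by linarith) (by norm_num)]; norm_num; linarith
    linarith
  rw [log_div (by linarith) hH.ne']
  linarith

end Vale.Agent.P322
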