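import Vale.Agent.P322.Zn1

/-! Analytic zones: `x` close to one. -/

namespace Vale.Agent.P322
open Real Set

lemma ahat_le {x b c T e : ℝ} (hb : 0 < b) (h : b ≤ x) (hx : x < 1) (hc : 1 ≤ c * (1 + b))
    (hT0 : 0 < T) (hT : T ≤ At x) (he : T + c ≤ 2 * e * T) : al x * Hh x / x ≤ e := by
  have x0 : 0 < x := by linarith
  have u := Hh_up hb.le h hx hc
  have c0 : 0 < c := by nlinarith
  have l : At x ≤ ell x := by
    have := lg_lo (x := x) (by linarith)
    unfold ell Dm At; linarith
  have ho := om_pos (by linarith) hx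
  have e0 : 1 / 2 < e := by nlinarith
  have k : At x + c ≤ 2 * e * At x := by nlinarith
  have t0 : 0 < At x := by linarith
  have : al x * Hh x / x = x * Hh x / ((1 - x ^ 2) * ell x) := by unfold al; field_simp
  rw [this, div_le_iff₀ (mul_pos ho (by linarith))]
  have a1 : x * Hh x ≤ x * ((1 - x) * (At x + c)) := mul_le_mul_of_nonneg_left u x0.le
  have a2 : x * (At x + c) ≤ e * ((1 + x) * ell x) := by
    have : x * (At x + c) ≤ x * (2 * e * At x) := mul_le_mul_of_nonneg_left k x0.le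
    have : e * (2 * x) * At x ≤ e * (1 + x) * ell x :=
      mul_le_mul (mul_le_mul_of_nonneg_left (by linarith) (by linarith)) l t0.le (by positivity)
    nlinarith
  have := mul_le_mul_of_nonneg_left a2 (show 0 ≤ 1 - x by linarith)
  nlinarith

lemma Hyp.lowA {d x Q v e : ℝ} (h : Hyp d x Q v) (hx0 : 0 < x) (hdx : d ≤ x) (hx : x < 1)
    (he : al x * Hh x / x ≤ e) :
    Gg x + 2 * Hh d - 2 * Hh x - (x - d) * (At x + e) - 2 * v ≤ Q := by
  have a := h.hA x hx0 hx
  have b := mul_le_mul_of_nonneg_left he (show 0 ≤ x - d by linarith)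
  have c : d * kk x - al x * Hh x = d * At x - (x - d) * (al x * Hh x / x) := by
    unfold kk; field_simp; ring
  rw [c] at a
  unfold Gg Hh at *; linarith

lemma Hyp.vle {d x Q v : ℝ} (h : Hyp d x Q v) (hd : 3 / 4 ≤ d) (hd1 : d < 1) :
    2 * v ≤ (1 - d) * (0.6932 + (1 - d)) := by
  have a := h.v3 (by linarith)
  obtain ⟨η, rfl⟩ : ∃ η, d = 1 - η := ⟨1 - d, by ring⟩
  have e0 : 0 < η := by linarith
  have e1 : η ≤ 1 / 4 := by linarith
  have s0 : 0 < 2 * (1 - η) - 1 := by linarith
  have b := Ph_le (x := 2 * (1 - η) - 1) (by linarith) (by linarith)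
  have c : ph1 (2 * (1 - η) - 1) ≤ Ph (2 * (1 - η) - 1) + 2 * η * log 2 * (2 * (1 - η) - 1) := by
    unfold ph1; rw [div_le_iff₀ s0]
    nlinarith [mul_le_mul_of_nonneg_left b (show 0 ≤ 2 * η by linarith)]
  have l1 : log (1 + (2 * (1 - η) - 1)) = log 2 + log (1 - η) := by
    rw [← log_mul (by norm_num) (by linarith)]; congr 1; ring
  have l2 : log (1 - (2 * (1 - η) - 1)) = log 2 + log η := by
    rw [← log_mul (by norm_num) (by linarith)]; congr 1; ring
  have l3 : log (1 + (1 - η)) = log 2 + log (1 - η / 2) := by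
    rw [← log_mul (by norm_num) (by linarith)]; congr 1; ring
  have l4 : log (1 - (1 - η)) = log η := by congr 1; ring
  have m1 : log (1 - η) ≤ 2 * log (1 - η / 2) := by
    have := log_le_log (show 0 < 1 - η by linarith) (show 1 - η ≤ (1 - η / 2) ^ 2 by nlinarith)
    rw [log_pow] at this; exact_mod_cast this
  have m2 : log (1 - η / 2) - log (1 - η) ≤ η := by
    have := log_le_sub_one_of_pos (show 0 < (1 - η / 2) / (1 - η) by
      apply div_pos <;> linarith)
    rw [log_div (by linarith) (by linarith)] at this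
    have : (1 - η / 2) / (1 - η) ≤ 1 + η := by rw [div_le_iff₀ (by linarith)]; nlinarith
    linarith
  have := l2hi
  have := l2pos
  unfold Jh at a
  have f1 : Ph (2 * (1 - η) - 1) = log 2 + (1 - η) * log (1 - η) + η * log η := by
    unfold Ph; rw [l1, l2]; ring
  have f2 : Ph (1 - η) = (1 - η / 2) * (log 2 + log (1 - η / 2)) + η / 2 * log η := by
    unfold Ph; rw [l3, l4]; ring
  rw [f1] at c; rw [f1, f2] at a
  nlinarith [mul_le_mul_of_nonneg_left m2 e0.le]

lemma At_sub {d x : ℝ} (h0 : 0 ≤ d) (h : d < x) (hx : x < 1) :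
    0 < (x - d) / (1 - x * d) ∧ (x - d) / (1 - x * d) < 1 ∧
      At ((x - d) / (1 - x * d)) = At x - At d := by
  have o : 0 < 1 - x * d := by nlinarith
  have a : 0 < (x - d) / (1 - x * d) := div_pos (by linarith) o
  have b : (x - d) / (1 - x * d) < 1 := by rw [div_lt_one o]; nlinarith
  refine ⟨a, b, ?_⟩
  have p1 : 1 + x ≠ 0 := by linarith
  have p2 : 1 - x ≠ 0 := by linarith
  have p3 : 1 + d ≠ 0 := by linarith
  have p4 : 1 - d ≠ 0 := by linarith
  have e1 : 1 + (x - d) / (1 - x * d) = (1 + x) * (1 - d) / (1 - x * d) := by field_simp; ring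
  have e2 : 1 - (x - d) / (1 - x * d) = (1 - x) * (1 + d) / (1 - x * d) := by field_simp; ring
  unfold At
  rw [e1, e2, log_div (by positivity) o.ne', log_div (by positivity) o.ne', log_mul p1 p4,
    log_mul p2 p3]; ring

lemma z5c1 {d x : ℝ} (hd : 0.2999 ≤ d) (hdx : d < x) (hx : x < 1) (h1 : 1 - x ≤ 0.0004)
    (h2 : 1 - x ≤ 4 * (1 - d) ^ 2) (t : 4.15 ≤ At x) :
    1.04 * (At x + 0.5002) ≤ (1 + d) ^ 2 * (At x - At d + 1 / 2) := by
  have l1 := l2lo
  have l2 := l2hi
  have am := At_mono (a := d) (b := x) (by linarith) hdx.le hx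
  rcases le_total d 0.8 with hc | hc
  · have := At_le_log (x := d) (n := 4) (by linarith) (by linarith) (by norm_num; linarith)
    push_cast at this
    have : 1.66 * (At x - At d + 1 / 2) ≤ (1 + d) ^ 2 * (At x - At d + 1 / 2) :=
      mul_le_mul_of_nonneg_right (by nlinarith) (by linarith)
    linarith
  · have e0 : 0 < 1 - d := by linarith
    have e1 : 0 < 1 - x := by linarith
    have e2 : 0 < 1 + d := by linarith
    have m : log (1 - x) + 2 * log (1 + d) ≤ 4 * log 2 + 2 * log (1 - d) + log (1 + x) := by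
      have := log_le_log (show 0 < (1 - x) * (1 + d) ^ 2 by positivity)
        (show (1 - x) * (1 + d) ^ 2 ≤ 2 ^ 4 * (1 - d) ^ 2 * (1 + x) by
          have : (1 + d) ^ 2 ≤ 4 := by nlinarith
          have : (1 - x) * (1 + d) ^ 2 ≤ 4 * (1 - d) ^ 2 * 4 :=
            mul_le_mul h2 this (sq_nonneg _) (by positivity)
          nlinarith [sq_nonneg (1 - d)])
      rw [log_mul e1.ne' (by positivity), log_mul (by positivity)
        (by linarith), log_mul (by norm_num) (by positivity), log_pow, log_pow,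
        log_pow] at this
      exact_mod_cast this
    have : 2 * At d ≤ At x + 2 * log 2 := by unfold At; linarith
    have : 3.24 * (At x - At d + 1 / 2) ≤ (1 + d) ^ 2 * (At x - At d + 1 / 2) :=
      mul_le_mul_of_nonneg_right (by nlinarith) (by linarith)
    linarith

lemma z5c2 {d x r : ℝ} (hd : 0.2999 ≤ d) (hdx : d < x) (hx : x < 1) (h1 : 1 - x ≤ 0.0004)
    (h2 : 1 - x ≤ 4 * (1 - d) ^ 2) (t : 4.15 ≤ At x) (hr : 1 - x = r * (1 - d)) (r0 : 0 < r)
    (r1 : r ≤ 0.04) : Hh x ≤ (1 - d ^ 2) * Hh ((x - d) / (1 - x * d)) := by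
  obtain ⟨z0, z1, za⟩ := At_sub (by linarith) hdx hx
  have c1 := z5c1 hd hdx hx h1 h2 t
  have u := Hh_up (b := 0.9996) (c := 0.5002) (by norm_num) (by linarith) hx (by norm_num)
  have am := At_mono (a := d) (b := x) (by linarith) hdx.le hx
  have hz1 : (1 - x) * (1 + d) ^ 2 ≤ (1 - d ^ 2) * (1 - (x - d) / (1 - x * d)) * (1 + r) := by
    have o : 0 < 1 - x * d := by nlinarith
    have e2 : 1 - (x - d) / (1 - x * d) = (1 - x) * (1 + d) / (1 - x * d) := by field_simp; ring
    have o2 : 1 - x * d ≤ (1 - d) * (1 + r) := by nlinarith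
    rw [e2, show (1 - d ^ 2) * ((1 - x) * (1 + d) / (1 - x * d)) * (1 + r) =
      (1 - x) * (1 + d) ^ 2 * ((1 - d) * (1 + r)) / (1 - x * d) by ring, le_div_iff₀ o]
    exact mul_le_mul_of_nonneg_left o2 (mul_nonneg (by linarith) (sq_nonneg _))
  generalize (x - d) / (1 - x * d) = z at *
  have hz2 : (1 - z) * (At x - At d + 1 / 2) ≤ Hh z := by
    have := lg_lo (x := z) (by linarith)
    rw [Hh_form, za]; linarith
  have od := om_pos (x := d) (by linarith) (by linarith)
  have a1 := mul_le_mul_of_nonneg_left hz2 od.le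
  have a2 := mul_le_mul_of_nonneg_right hz1 (show 0 ≤ At x - At d + 1 / 2 by linarith)
  have a3 := mul_le_mul_of_nonneg_left c1 (show 0 ≤ 1 - x by linarith)
  have a4 : (1 - x) * (At x + 0.5002) * (1 + r) ≤ (1 - x) * (At x + 0.5002) * 1.04 :=
    mul_le_mul_of_nonneg_left (by linarith) (mul_nonneg (by linarith) (by linarith))
  have a5 : (1 - x) * (At x + 0.5002) ≤ (1 - d ^ 2) * ((1 - z) * (At x - At d + 1 / 2)) :=
    le_of_mul_le_mul_right (a := 1 + r) (by linarith) (by linarith)
  linarith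

lemma z5c5 {d x Q v r : ℝ} (k : Hyp d x Q v) (hd : 0.2999 ≤ d) (hd1 : d < 1)
    (h1 : r * (1 - d) ≤ 0.0004) (t : 4.1588 ≤ At x) (r0 : 0 < r) (r1 : r ≤ 0.04) :
    2 * v ≤ (1 - d) * ((d - r) * At x - 1.0004 * r + (1 - d) * At d + 0.4397 -
      1.3863 * (1 + d)) := by
  have ad := At_ge1 (x := d) (by linarith) (by linarith)
  have e0 : 0 ≤ 1 - d := by linarith
  have b1 : (d - r) * 4.1588 ≤ (d - r) * At x :=
    mul_le_mul_of_nonneg_left (by linarith) (by linarith)
  have b2 : (1 - d) * d ≤ (1 - d) * At d := mul_le_mul_of_nonneg_left ad e0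
  refine le_trans ?_ (mul_le_mul_of_nonneg_left (show (d - r) * 4.1588 - 1.0004 * r +
    (1 - d) * d + 0.4397 - 1.3863 * (1 + d) ≤ _ by linarith) e0)
  rcases le_total d (3 / 4) with hc | hc
  · have b3 := k.v1
    have b4 := Ph_ge (x := d) (by linarith) (by linarith)
    have b5 : d ^ 2 * log 2 ≤ d ^ 2 * 0.6932 :=
      mul_le_mul_of_nonneg_left (by linarith [l2hi]) (sq_nonneg d)
    have b6 : 0 ≤ (d - 0.2999) * (3 / 4 - d) := mul_nonneg (by linarith) (by linarith)
    have b7 := mul_nonneg b6 e0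
    nlinarith
  · have b3 := k.vle hc (by linarith)
    refine b3.trans (mul_le_mul_of_nonneg_left ?_ e0)
    nlinarith

lemma z5 {d x : ℝ} (hd : 0.2999 ≤ d) (hdx : d < x) (hx : x < 1) (h1 : 1 - x ≤ 0.0004)
    (h2 : 1 - x ≤ 4 * (1 - d) ^ 2) : Good d x := by
  intro Q v k
  right
  obtain ⟨z0, z1, za⟩ := At_sub (by linarith) hdx hx
  refine ⟨_, z0, z1, ?_⟩
  have l1 := l2lo
  have l2 := l2hi
  have t := At_ge_log (x := x) (n := 12) (by linarith) hx (by norm_num; linarith)
  push_cast at t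
  have u := Hh_up (b := 0.9996) (c := 0.5002) (by norm_num) (by linarith) hx (by norm_num)
  have A := k.lowA (e := 0.5603) (by linarith) hdx.le hx
    (ahat_le (b := 0.9996) (c := 0.5002) (T := 4.15) (by norm_num) (by linarith) hx
      (by norm_num) (by norm_num) (by linarith) (by norm_num))
  have e0 : 0 < 1 - d := by linarith
  obtain ⟨r, hr⟩ : ∃ r, 1 - x = r * (1 - d) := ⟨(1 - x) / (1 - d), by field_simp⟩
  have r0 : 0 < r := (mul_pos_iff_of_pos_right e0).1 (by linarith)
  have r4 : r ≤ 4 * (1 - d) := le_of_mul_le_mul_right (by nlinarith) e0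
  have r1 : r ≤ 0.04 := by
    by_contra hn
    have : 0.04 * 0.04 < r * r := by nlinarith
    nlinarith
  have c2 := z5c2 hd hdx hx h1 h2 (by linarith) hr r0 r1
  have c5 := z5c5 k hd (by linarith) (by linarith) (by linarith) r0 r1
  generalize (x - d) / (1 - x * d) = z at *
  have od := om_pos (x := d) (by linarith) (by linarith)
  have c3 : At x - At d - 1.3863 ≤ Gg z := by
    have := lg_lo (x := z) (by linarith)
    have e : Gg z = z * At z - 2 * log 2 + 2 * Hh z := by unfold Gg Hh; ring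
    have := mul_nonneg (show 0 ≤ 1 - z by linarith) (At_nonneg z0.le z1)
    rw [e, Hh_form, ← za]; linarith
  have c4 : (1 - d) * (At d + 1 / 2) ≤ Hh d := by
    have := lg_lo (x := d) (by linarith)
    rw [Hh_form]; linarith
  have c6 := mul_le_mul_of_nonneg_left c2 (Ll_nonneg z0 z1)
  have c7 := mul_le_mul_of_nonneg_left c3 od.le
  have c9 : 0 ≤ (1 - d) * r := by positivity
  obtain rfl : x = 1 - r * (1 - d) := by linarith
  unfold gam
  linarith

lemma At_sub_Gg_mono {a b : ℝ} (ha : 0 ≤ a) (hab : a ≤ b) (hb : b < 1) :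
    At a - Gg a ≤ At b - Gg b :=
  mono_of_deriv' (f := fun s => At s - Gg s) hab (fun s hs =>
    (hd_At (by linarith [hs.1]) (by linarith [hs.2])).sub
      (hd_Gg (by linarith [hs.1]) (by linarith [hs.2]))) (fun s hs => by
    have h0 : 0 < s := by linarith [hs.1]
    have h1 : s < 1 := by linarith [hs.2]
    have := At_nonneg h0.le h1
    have : s / (1 - s ^ 2) ≤ 1 / (1 - s ^ 2) :=
      div_le_div_of_nonneg_right h1.le (om_pos (by linarith) h1).le
    linarith)

lemma rlog_le {r : ℝ} (n : ℕ) (r0 : 0 < r) : r * -log r ≤ (n * log 2 - 1) * r + 1 / 2 ^ n := by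
  have := log_le_sub_one_of_pos (show 0 < 1 / (2 ^ n * r) by positivity)
  rw [log_div (by norm_num) (by positivity), log_mul (by positivity) r0.ne', log_pow,
    log_one] at this
  have b := mul_le_mul_of_nonneg_left this r0.le
  have e : r * (1 / (2 ^ n * r) - 1) = 1 / 2 ^ n - r := by field_simp
  rw [e] at b; linarith

lemma z4a {r a u : ℝ} (r0 : 0 < r) (hc : r ≤ 1 / 2) (ha : 2.425 ≤ a)
    (b2 : log 2 ≤ a + log r / 2) (u1 : u ≤ -log r / 2 + 0.0026 * (1 - r)) :
    0.7032 ≤ (1 - r) * (a + 0.396) - (1 + r) * u := by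
  have l1 := l2lo
  have l2 := l2hi
  have b0 := mul_le_mul_of_nonneg_left u1 (show 0 ≤ 1 + r by linarith)
  rcases le_total r 0.1 with hc2 | hc2
  · have b1 := rlog_le 3 r0
    have b3 := mul_le_mul_of_nonneg_left b2 (show 0 ≤ 1 - r by linarith)
    have b4 : log 2 * r ≤ 0.6932 * r := mul_le_mul_of_nonneg_right (by linarith) r0.le
    norm_num at b1
    nlinarith
  · have b1 := rlog_le 2 r0
    have b4 : log 2 * r ≤ 0.69315 * r := mul_le_mul_of_nonneg_right (by linarith) r0.le
    have b1' : r * -log r ≤ 0.3863 * r + 1 / 4 := by norm_num at b1 ⊢; linarith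
    have b2 : (1 - r) * 2.82 ≤ (1 - r) * (a + 0.396) :=
      mul_le_mul_of_nonneg_left (by linarith) (by linarith)
    have b3 := mul_le_mul_of_nonneg_left b1' (show 0 ≤ 1 + r by linarith)
    have b4 : 0 ≤ (r - 0.1) * (1 / 2 - r) := mul_nonneg (by linarith) (by linarith)
    have b5 : 0 ≤ r * r * r := by positivity
    have : r * 0.7032 ≤ r * ((1 - r) * 2.82 - (1 + r) * (-log r / 2 + 0.0026 * (1 - r))) := by
      linarith
    have := le_of_mul_le_mul_left this r0
    linarith

lemma z4b {r u : ℝ} (hc : 1 / 2 ≤ r) (r1 : r ≤ 1) (u1 : u ≤ -log r / 2 + 0.0026 * (1 - r)) :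
    (3 + r) * u ≤ (1 - r) * 2.82 := by
  have r0 : 0 < r := by linarith
  have b1 : r * -log r ≤ (1 - r ^ 2) / 2 := by
    have := log_le_half (t := 1 / r) (by rw [le_div_iff₀ r0]; linarith)
    rw [log_div (by norm_num) r0.ne', log_one] at this
    have b := mul_le_mul_of_nonneg_left this r0.le
    have e : r * ((1 / r - 1 / (1 / r)) / 2) = (1 - r ^ 2) / 2 := by field_simp
    rw [e] at b; linarith
  have c1 := mul_le_mul_of_nonneg_left u1 (show 0 ≤ r * (3 + r) by positivity)
  have c2 := mul_le_mul_of_nonneg_left b1 (show 0 ≤ 3 + r by linarith)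
  have c3 : 0 ≤ (1 - r) * ((r - 1 / 2) * (1 - r)) :=
    mul_nonneg (by linarith) (mul_nonneg (by linarith) (by linarith))
  have c4 : 0 ≤ (1 - r) * (r - 1 / 2) := mul_nonneg (by linarith) (by linarith)
  refine le_of_mul_le_mul_left ?_ r0
  linarith

lemma z4u {d x r : ℝ} (hd : 0.99 ≤ d) (hdx : d ≤ x) (hx : x < 1) (hr : 1 - x = r * (1 - d))
    (r0 : 0 < r) (r1 : r ≤ 1) : (1 - d) * (1 - r) / 2 ≤ log (1 + x) - log (1 + d) ∧
      At x - At d ≤ -log r / 2 + 0.0026 * (1 - r) := by
  have e0 : 0 < 1 - d := by linarith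
  have lx : log (1 - x) = log r + log (1 - d) := by rw [hr, log_mul r0.ne' e0.ne']
  constructor
  · have := one_sub_inv_le_log_of_pos (show 0 < (1 + x) / (1 + d) by apply div_pos <;> linarith)
    rw [log_div (by linarith) (by linarith), inv_div] at this
    have : (1 + d) / (1 + x) ≤ 1 - (x - d) / 2 := by
      rw [div_le_iff₀ (by linarith)]; nlinarith
    linarith
  · have := log_le_sub_one_of_pos (show 0 < (1 + x) / (1 + d) by apply div_pos <;> linarith)
    rw [log_div (by linarith) (by linarith)] at this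
    have : (1 + x) / (1 + d) ≤ 1 + 0.0052 * (1 - r) := by
      rw [div_le_iff₀ (by linarith)]
      nlinarith [mul_nonneg (show 0 ≤ 1 - r by linarith) (show 0 ≤ d - 0.99 by linarith)]
    unfold At; rw [lx]; linarith

lemma z4 {d x : ℝ} (hd : 0.99 ≤ d) (hdx : d ≤ x) (hx : x < 1)
    (h2 : 4 * (1 - d) ^ 2 ≤ 1 - x) : Good d x := by
  intro Q v k
  left
  have l1 := l2lo
  have t := At_ge_log (x := d) (n := 7) (by linarith) (by linarith) (by norm_num; linarith)
  push_cast at t
  have am := At_mono (a := d) (b := x) (by linarith) hdx hx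
  have A := k.lowA (e := 0.604) (by linarith) hdx hx
    (ahat_le (b := 0.99) (c := 0.5026) (T := 2.42) (by norm_num) (by linarith) hx
      (by norm_num) (by norm_num) (by linarith) (by norm_num))
  have V := k.vle (by linarith) (by linarith)
  have e0 : 0 < 1 - d := by linarith
  obtain ⟨r, hr⟩ : ∃ r, 1 - x = r * (1 - d) := ⟨(1 - x) / (1 - d), by field_simp⟩
  have r0 : 0 < r := (mul_pos_iff_of_pos_right e0).1 (by linarith)
  have r4 : 4 * (1 - d) ≤ r := le_of_mul_le_mul_right (by nlinarith) e0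
  have r1 : r ≤ 1 := le_of_mul_le_mul_right (by linarith) e0
  obtain ⟨m1, u1⟩ := z4u hd hdx hx hr r0 r1
  have N : Gg x + (1 - d) * ((1 - r) * (At d + 0.396) - (1 + r) * (At x - At d)) - 2 * v ≤ Q := by
    rw [Hh_form d, Hh_form x, show x - d = (1 - d) * (1 - r) by linarith, hr] at A
    linarith
  have V' : 2 * v ≤ (1 - d) * 0.7032 := V.trans (mul_le_mul_of_nonneg_left (by linarith) e0.le)
  rcases le_total r (1 / 2) with hc | hc
  · have b2 : log 2 ≤ At d + log r / 2 := by
      have := log_le_log (show 0 < 2 ^ 2 * (1 - d) by positivity)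
        (show 2 ^ 2 * (1 - d) ≤ (1 + d) * r by nlinarith)
      rw [log_mul (by norm_num) e0.ne', log_mul (by linarith) r0.ne', log_pow] at this
      unfold At; push_cast at this; linarith
    have := mul_le_mul_of_nonneg_left (z4a r0 hc (by linarith) b2 u1) e0.le
    linarith
  · have b3 := z4b hc r1 u1
    have b2 : (1 - r) * 2.82 ≤ (1 - r) * (At d + 0.396) :=
      mul_le_mul_of_nonneg_left (by linarith) (by linarith)
    have B := k.hB 0 le_rfl (sg_nonneg d)
    have G := At_sub_Gg_mono (a := d) (by linarith) hdx hx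
    have od := om_pos (x := d) (by linarith) (by linarith)
    have w : 1 * v ≤ (1 - d) * (2 / (1 - d ^ 2)) * v := by
      refine mul_le_mul_of_nonneg_right ?_ k.v0
      rw [← mul_div_assoc, le_div_iff₀ od]; nlinarith
    have B2 := mul_le_mul_of_nonneg_left (show Gg x - (At x - At d) + 2 / (1 - d ^ 2) * v ≤ Q by
      linarith) e0.le
    have N2 := mul_le_mul_of_nonneg_left (show 2 * (At x - At d) ≤
      (1 - r) * (At d + 0.396) - (1 + r) * (At x - At d) by linarith) e0.le
    exact le_of_mul_le_mul_left (a := 1 + 2 * (1 - d)) (by linarith) (by linarith)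

end Vale.Agent.P322
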