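import Vale.Agent.P322.Zn2
import Vale.Agent.P322.Cert

/-! The two-variable inequality holds on the whole triangle. -/

namespace Vale.Agent.P322
open Real Set

lemma swp1 {x : ℝ} (h1 : 1 / 6 ≤ x) (h2 : x ≤ rr 13757318) :
    gam x * 0.6945 + 0.00174 ≤ Ph x := by
  have h := okS1
  rw [Bool.and_eq_true] at h
  exact sweep_sound f1_sound _ _ _ (mkN_ok h.1) h.2 x (by rw [rr_eq]; norm_num; linarith) h2

lemma swp2 {x : ℝ} (h1 : rr 13757318 < x) (h2 : x < 1) :
    0.6 * (gam x + 1.076) ≤ log (1.2 * log 2 / Hh x) := by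
  rcases le_total x 0.9 with h3 | h3
  · have h := okS2
    rw [Bool.and_eq_true] at h
    exact sweep_sound f2_sound _ _ _ (mkN_ok h.1) h.2 x h1 (by rw [rr_eq]; norm_num; linarith)
  · exact z2tail h3 h2

theorem good_all {d x : ℝ} (h0 : 0 < d) (hdx : d < x) (hx : x < 1) : Good d x := by
  have x0 : 0 < x := by linarith
  rcases le_or_gt d (rr 5033164) with h1 | h1
  · rcases le_or_gt x (rr 13757318) with h2 | h2
    · rcases le_or_gt d (1 / 20) with h3 | h3
      · rcases le_total x (5 * d / 3) with h4 | h4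
        · exact z1a h0 h3 hdx.le h4
        rcases le_total x (1 / 6) with h5 | h5
        · exact z1b h0 h3 h4 h5
        · exact z1c h0 h3 x0 hx (swp1 h5 h2)
      · exact cols_sound _ _ okA d x (by rw [rr_eq]; norm_num; linarith) h1 hdx.le h2
    · exact z2 h0 (by rw [rr_eq] at h1; norm_num at h1 ⊢; linarith) x0 hx (swp2 h2 hx)
  have h1' : 0.2999 ≤ d := by rw [rr_eq] at h1; norm_num at h1 ⊢; linarith
  rcases le_or_gt d 0.99 with h2 | h2
  · rcases le_or_gt x (rr 16770506) with h3 | h3
    · rcases le_or_gt d (rr 14567056) with a | a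
      · exact cols_sound _ _ okB0 d x h1 a hdx.le h3
      rcases le_or_gt d (rr 15725615) with b | b
      · exact cols_sound _ _ okB1 d x a b hdx.le h3
      rcases le_or_gt d (rr 16449613) with c | c
      · exact cols_sound _ _ okB2 d x b c hdx.le h3
      · exact cols_sound _ _ okB3 d x c (by rw [rr_eq]; norm_num at h2 ⊢; linarith) hdx.le h3
    · have : 1 - x ≤ 0.0004 := by rw [rr_eq] at h3; norm_num at h3 ⊢; linarith
      exact z5 h1' hdx hx this (by nlinarith)
  · rcases le_total (1 - x) (4 * (1 - d) ^ 2) with h3 | h3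
    · exact z5 h1' hdx hx (by nlinarith) h3
    · exact z4 h2.le hdx.le hx h3

end Vale.Agent.P322
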